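import Mathlib

/-!
An affine bijection between finite-dimensional real normed spaces multiplies Haar measure by a
positive finite constant.
-/

namespace Vale.Agent.Lib.P243.H18

open MeasureTheory Set MeasureTheory.Measure

/-- Volume scaling under an affine bijection `x ↦ x₀ + L x`. -/
lemma exists_scale {E F : Type*} [NormedAddCommGroup E] [NormedSpace ℝ E] [MeasurableSpace E]
    [BorelSpace E] [FiniteDimensional ℝ E] [NormedAddCommGroup F] [NormedSpace ℝ F]
    [MeasurableSpace F] [BorelSpace F] [FiniteDimensional ℝ F]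
    (μ : Measure E) [μ.IsAddHaarMeasure] (ν : Measure F) [ν.IsAddHaarMeasure]
    (L : E ≃L[ℝ] F) (x₀ : F) :
    ∃ c : ENNReal, c ≠ 0 ∧ c ≠ ⊤ ∧ ∀ X : Set E, ν ((fun x => x₀ + L x) '' X) = c * μ X := by
  have hH : (ν.map L.symm).IsAddHaarMeasure := L.symm.isAddHaarMeasure_map ν
  have h := isAddLeftInvariant_eq_smul (ν.map L.symm) μ
  refine ⟨(addHaarScalarFactor (ν.map L.symm) μ : ENNReal), ?_, ENNReal.coe_ne_top, fun X => ?_⟩
  · exact (ENNReal.coe_pos.2 (addHaarScalarFactor_pos_of_isAddHaarMeasure _ _)).ne'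
  · have h1 : (fun x => x₀ + L x) '' X = (fun y => x₀ + y) '' (L '' X) := by
      rw [Set.image_image]
    have h2 : L '' X = L.symm ⁻¹' X := L.toEquiv.image_eq_preimage_symm X
    have h3 : ν (L.symm ⁻¹' X) = (ν.map L.symm) X :=
      (MeasurableEquiv.map_apply L.symm.toHomeomorph.toMeasurableEquiv X).symm
    rw [h1, Set.image_add_left, measure_preimage_add, h2, h3]
    have h4 := congrArg (fun m : Measure E => m X) h
    exact h4.trans (Measure.nnreal_smul_coe_apply _ _ _)

end Vale.Agent.Lib.P243.H18
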