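import Mathlib

/-!
Model computations for the tetrahedron theorem: the standard simplex `Simp` in `ℝ × ℝ × ℝ`,
its core `Core` (all four barycentric coordinates at most `1 / 2`) and the standard triangle
`Tri`.  Along the first coordinate direction the chords of `Simp` and of `Core` have total
length at most `1`, while `volume Simp + volume Core ≥ volume Tri / 2`.
-/

namespace Vale.Agent.Lib.P243.H18

open MeasureTheory Set
open scoped Pointwise

/-- The standard triangle. -/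
def Tri : Set (ℝ × ℝ) := {y | 0 ≤ y.1 ∧ 0 ≤ y.2 ∧ y.1 + y.2 ≤ 1}

/-- The standard simplex in `ℝ × ℝ × ℝ`. -/
def Simp : Set (ℝ × ℝ × ℝ) :=
  {z | 0 ≤ z.1 ∧ 0 ≤ z.2.1 ∧ 0 ≤ z.2.2 ∧ z.1 + z.2.1 + z.2.2 ≤ 1}

/-- The core of the standard simplex: all four barycentric coordinates are at most `1 / 2`. -/
def Core : Set (ℝ × ℝ × ℝ) :=
  {z | 0 ≤ z.1 ∧ 0 ≤ z.2.1 ∧ 0 ≤ z.2.2 ∧ z.1 + z.2.1 + z.2.2 ≤ 1 ∧
    z.1 ≤ 1 / 2 ∧ z.2.1 ≤ 1 / 2 ∧ z.2.2 ≤ 1 / 2 ∧ 1 / 2 ≤ z.1 + z.2.1 + z.2.2}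

lemma isClosed_Tri : IsClosed Tri := by
  have h1 : IsClosed {y : ℝ × ℝ | 0 ≤ y.1} := isClosed_le continuous_const continuous_fst
  have h2 : IsClosed {y : ℝ × ℝ | 0 ≤ y.2} := isClosed_le continuous_const continuous_snd
  have h3 : IsClosed {y : ℝ × ℝ | y.1 + y.2 ≤ 1} :=
    isClosed_le (continuous_fst.add continuous_snd) continuous_const
  exact h1.inter (h2.inter h3)

lemma measurableSet_Tri : MeasurableSet Tri := isClosed_Tri.measurableSet

lemma isClosed_Simp : IsClosed Simp := by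
  have c1 : Continuous fun z : ℝ × ℝ × ℝ => z.1 := continuous_fst
  have c2 : Continuous fun z : ℝ × ℝ × ℝ => z.2.1 := continuous_fst.comp continuous_snd
  have c3 : Continuous fun z : ℝ × ℝ × ℝ => z.2.2 := continuous_snd.comp continuous_snd
  have h1 : IsClosed {z : ℝ × ℝ × ℝ | 0 ≤ z.1} := isClosed_le continuous_const c1
  have h2 : IsClosed {z : ℝ × ℝ × ℝ | 0 ≤ z.2.1} := isClosed_le continuous_const c2
  have h3 : IsClosed {z : ℝ × ℝ × ℝ | 0 ≤ z.2.2} := isClosed_le continuous_const c3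
  have h4 : IsClosed {z : ℝ × ℝ × ℝ | z.1 + z.2.1 + z.2.2 ≤ 1} :=
    isClosed_le ((c1.add c2).add c3) continuous_const
  exact h1.inter (h2.inter (h3.inter h4))

lemma measurableSet_Simp : MeasurableSet Simp := isClosed_Simp.measurableSet

lemma isClosed_Core : IsClosed Core := by
  have c1 : Continuous fun z : ℝ × ℝ × ℝ => z.1 := continuous_fst
  have c2 : Continuous fun z : ℝ × ℝ × ℝ => z.2.1 := continuous_fst.comp continuous_snd
  have c3 : Continuous fun z : ℝ × ℝ × ℝ => z.2.2 := continuous_snd.comp continuous_snd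
  have h1 : IsClosed {z : ℝ × ℝ × ℝ | 0 ≤ z.1} := isClosed_le continuous_const c1
  have h2 : IsClosed {z : ℝ × ℝ × ℝ | 0 ≤ z.2.1} := isClosed_le continuous_const c2
  have h3 : IsClosed {z : ℝ × ℝ × ℝ | 0 ≤ z.2.2} := isClosed_le continuous_const c3
  have h4 : IsClosed {z : ℝ × ℝ × ℝ | z.1 + z.2.1 + z.2.2 ≤ 1} :=
    isClosed_le ((c1.add c2).add c3) continuous_const
  have h5 : IsClosed {z : ℝ × ℝ × ℝ | z.1 ≤ 1 / 2} := isClosed_le c1 continuous_const
  have h6 : IsClosed {z : ℝ × ℝ × ℝ | z.2.1 ≤ 1 / 2} := isClosed_le c2 continuous_const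
  have h7 : IsClosed {z : ℝ × ℝ × ℝ | z.2.2 ≤ 1 / 2} := isClosed_le c3 continuous_const
  have h8 : IsClosed {z : ℝ × ℝ × ℝ | 1 / 2 ≤ z.1 + z.2.1 + z.2.2} :=
    isClosed_le continuous_const ((c1.add c2).add c3)
  exact h1.inter (h2.inter (h3.inter (h4.inter (h5.inter (h6.inter (h7.inter h8))))))

lemma measurableSet_Core : MeasurableSet Core := isClosed_Core.measurableSet

lemma Core_subset_Simp : Core ⊆ Simp := fun _ hz => ⟨hz.1, hz.2.1, hz.2.2.1, hz.2.2.2.1⟩

/-- Chords of `Simp` and `Core` in the first coordinate direction have total length at most one,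
and they only occur over the triangle. -/
lemma capture (W : Set (ℝ × ℝ)) (hW : MeasurableSet W) :
    volume (Simp ∩ Prod.snd ⁻¹' W) + volume (Core ∩ Prod.snd ⁻¹' W) ≤ volume (W ∩ Tri) := by
  have hA : MeasurableSet (Simp ∩ Prod.snd ⁻¹' W) := measurableSet_Simp.inter (measurable_snd hW)
  have hB : MeasurableSet (Core ∩ Prod.snd ⁻¹' W) := measurableSet_Core.inter (measurable_snd hW)
  rw [Measure.volume_eq_prod, Measure.prod_apply_symm hA, Measure.prod_apply_symm hB,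
    ← lintegral_add_left (measurable_measure_prodMk_right hA)]
  calc ∫⁻ y, (volume ((fun x : ℝ => (x, y)) ⁻¹' (Simp ∩ Prod.snd ⁻¹' W))
          + volume ((fun x : ℝ => (x, y)) ⁻¹' (Core ∩ Prod.snd ⁻¹' W)))
      ≤ ∫⁻ y, (W ∩ Tri).indicator 1 y := lintegral_mono (fun y => ?_)
    _ = volume (W ∩ Tri) := by rw [lintegral_indicator_one (hW.inter measurableSet_Tri)]
  by_cases hy : y ∈ W ∩ Tri
  · rw [indicator_of_mem hy, Pi.one_apply]
    obtain ⟨-, hy1, hy2, hy3⟩ := hy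
    set m : ℝ := 1 - y.1 - y.2 with hm
    have hsub1 : (fun x : ℝ => (x, y)) ⁻¹' (Simp ∩ Prod.snd ⁻¹' W) ⊆ Icc 0 m := by
      rintro x ⟨⟨h1, -, -, h4⟩, -⟩
      exact ⟨h1, by simp only at h4; rw [hm]; linarith⟩
    have hsub2 : (fun x : ℝ => (x, y)) ⁻¹' (Core ∩ Prod.snd ⁻¹' W)
        ⊆ Icc (max 0 (1 / 2 - y.1 - y.2)) (min (1 / 2) m) := by
      rintro x ⟨⟨h1, -, -, h4, h5, -, -, h8⟩, -⟩
      simp only at h1 h4 h5 h8
      exact ⟨max_le h1 (by linarith), le_min h5 (by rw [hm]; linarith)⟩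
    have hle : max 0 (1 / 2 - y.1 - y.2) ≤ min (1 / 2) m := by
      refine max_le (le_min (by norm_num) (by rw [hm]; linarith)) (le_min (by linarith) ?_)
      rw [hm]; linarith
    calc volume ((fun x : ℝ => (x, y)) ⁻¹' (Simp ∩ Prod.snd ⁻¹' W))
          + volume ((fun x : ℝ => (x, y)) ⁻¹' (Core ∩ Prod.snd ⁻¹' W))
        ≤ volume (Icc 0 m) + volume (Icc (max 0 (1 / 2 - y.1 - y.2)) (min (1 / 2) m)) :=
          add_le_add (measure_mono hsub1) (measure_mono hsub2)
      _ = ENNReal.ofReal (m + (min (1 / 2) m - max 0 (1 / 2 - y.1 - y.2))) := by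
          rw [Real.volume_Icc, Real.volume_Icc, sub_zero,
            ENNReal.ofReal_add (by rw [hm]; linarith) (sub_nonneg.2 hle)]
      _ ≤ ENNReal.ofReal 1 := by
          apply ENNReal.ofReal_le_ofReal
          rcases le_total (1 / 2) m with h | h
          · rw [min_eq_left h]
            have : (1 / 2 : ℝ) - y.1 - y.2 ≤ max 0 (1 / 2 - y.1 - y.2) := le_max_right _ _
            rw [hm] at h ⊢; linarith
          · rw [min_eq_right h]
            have : (0 : ℝ) ≤ max 0 (1 / 2 - y.1 - y.2) := le_max_left _ _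
            linarith
      _ = 1 := ENNReal.ofReal_one
  · rw [indicator_of_notMem hy]
    have h1 : (fun x : ℝ => (x, y)) ⁻¹' (Simp ∩ Prod.snd ⁻¹' W) = ∅ := by
      rw [eq_empty_iff_forall_notMem]
      rintro x ⟨⟨h1, h2, h3, h4⟩, hw⟩
      simp only at h1 h2 h3 h4
      exact hy ⟨hw, h2, h3, by linarith⟩
    have h2 : (fun x : ℝ => (x, y)) ⁻¹' (Core ∩ Prod.snd ⁻¹' W) = ∅ := by
      rw [eq_empty_iff_forall_notMem]
      rintro x ⟨⟨h1, h2, h3, h4, -⟩, hw⟩
      simp only at h1 h2 h3 h4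
      exact hy ⟨hw, h2, h3, by linarith⟩
    rw [h1, h2, measure_empty, add_zero]

lemma Tri_lt_top : volume Tri < ⊤ := by
  have h : Tri ⊆ Icc (0 : ℝ) 1 ×ˢ Icc (0 : ℝ) 1 := by
    rintro y ⟨h1, h2, h3⟩
    exact ⟨⟨h1, by linarith⟩, ⟨h2, by linarith⟩⟩
  refine (measure_mono h).trans_lt ?_
  rw [Measure.volume_eq_prod, Measure.prod_prod, Real.volume_Icc]
  exact ENNReal.mul_lt_top ENNReal.ofReal_lt_top ENNReal.ofReal_lt_top

lemma Tri_pos : 0 < volume Tri := by
  have h : Icc (0 : ℝ) (1 / 2) ×ˢ Icc (0 : ℝ) (1 / 2) ⊆ Tri := by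
    rintro y ⟨⟨h1, h2⟩, ⟨h3, h4⟩⟩
    exact ⟨h1, h3, by linarith⟩
  refine lt_of_lt_of_le ?_ (measure_mono h)
  rw [Measure.volume_eq_prod, Measure.prod_prod, Real.volume_Icc]
  exact ENNReal.mul_pos (by simp) (by simp)

lemma Simp_lt_top : volume Simp < ⊤ := by
  have h : Simp ⊆ Icc (0 : ℝ) 1 ×ˢ (Icc (0 : ℝ) 1 ×ˢ Icc (0 : ℝ) 1) := by
    rintro z ⟨h1, h2, h3, h4⟩
    exact ⟨⟨h1, by linarith⟩, ⟨h2, by linarith⟩, ⟨h3, by linarith⟩⟩
  refine (measure_mono h).trans_lt ?_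
  rw [Measure.volume_eq_prod, Measure.prod_prod, Measure.volume_eq_prod, Measure.prod_prod,
    Real.volume_Icc]
  exact ENNReal.mul_lt_top ENNReal.ofReal_lt_top
    (ENNReal.mul_lt_top ENNReal.ofReal_lt_top ENNReal.ofReal_lt_top)

lemma integral_one_sub_sq : ∫ s in (0 : ℝ)..1, (1 - s) ^ 2 = 1 / 3 := by
  have h := intervalIntegral.integral_comp_sub_left (a := (0 : ℝ)) (b := 1)
    (fun u : ℝ => u ^ 2) 1
  rw [h, integral_pow]
  norm_num

lemma lintegral_one_sub_sq :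
    ∫⁻ s in Icc (0 : ℝ) 1, ENNReal.ofReal ((1 - s) ^ 2) = ENNReal.ofReal (1 / 3) := by
  have hint : IntegrableOn (fun s : ℝ => (1 - s) ^ 2) (Icc 0 1) :=
    (Continuous.continuousOn (by fun_prop)).integrableOn_compact isCompact_Icc
  rw [← ofReal_integral_eq_lintegral_ofReal hint
    (Filter.Eventually.of_forall fun s => sq_nonneg _),
    integral_Icc_eq_integral_Ioc, ← intervalIntegral.integral_of_le zero_le_one,
    integral_one_sub_sq]

/-- The cone formula, as an inequality: the simplex has at least a third of the volume of the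
prism over the triangle. -/
lemma Simp_ge : ENNReal.ofReal (1 / 3) * volume Tri ≤ volume Simp := by
  have h1 : ∀ s ∈ Icc (0 : ℝ) 1,
      ENNReal.ofReal ((1 - s) ^ 2) * volume Tri ≤ volume (Prod.mk s ⁻¹' Simp) := by
    intro s hs
    have hsub : (1 - s) • Tri ⊆ Prod.mk s ⁻¹' Simp := by
      rintro _ ⟨y, ⟨hy1, hy2, hy3⟩, rfl⟩
      have h0 : 0 ≤ 1 - s := by linarith [hs.2]
      refine ⟨hs.1, ?_, ?_, ?_⟩
      · simpa using mul_nonneg h0 hy1
      · simpa using mul_nonneg h0 hy2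
      · have : (1 - s) * y.1 + (1 - s) * y.2 ≤ 1 - s := by nlinarith
        simp only [Prod.smul_fst, Prod.smul_snd, smul_eq_mul]
        linarith
    have hfr : Module.finrank ℝ (ℝ × ℝ) = 2 := by simp
    calc ENNReal.ofReal ((1 - s) ^ 2) * volume Tri = volume ((1 - s) • Tri) := by
          rw [Measure.addHaar_smul, hfr, abs_of_nonneg (sq_nonneg _)]
      _ ≤ _ := measure_mono hsub
  rw [Measure.volume_eq_prod ℝ (ℝ × ℝ), Measure.prod_apply measurableSet_Simp]
  calc ENNReal.ofReal (1 / 3) * volume Tri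
      = ∫⁻ s in Icc (0 : ℝ) 1, ENNReal.ofReal ((1 - s) ^ 2) * volume Tri := by
        rw [lintegral_mul_const' _ _ Tri_lt_top.ne, lintegral_one_sub_sq]
    _ ≤ ∫⁻ s in Icc (0 : ℝ) 1, volume (Prod.mk s ⁻¹' Simp) :=
        setLIntegral_mono' measurableSet_Icc h1
    _ ≤ ∫⁻ s, volume (Prod.mk s ⁻¹' Simp) := setLIntegral_le_lintegral _ _

lemma haar_triple : (volume : Measure (ℝ × ℝ × ℝ)).IsAddHaarMeasure :=
  inferInstanceAs ((volume : Measure ℝ).prod (volume : Measure (ℝ × ℝ))).IsAddHaarMeasure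

lemma half_Simp_volume :
    volume ((1 / 2 : ℝ) • Simp) = ENNReal.ofReal (1 / 8) * volume Simp := by
  have := haar_triple
  have hfr : Module.finrank ℝ (ℝ × ℝ × ℝ) = 3 := by simp
  rw [Measure.addHaar_smul, hfr]
  congr 2
  rw [abs_of_nonneg (by positivity)]
  norm_num

/-- Every point of the simplex lies in the core or in one of the four corner simplices. -/
lemma Simp_subset_cover :
    Simp ⊆ Core ∪ ((1 / 2 : ℝ) • Simp) ∪ ((((1 / 2 : ℝ), (0 : ℝ), (0 : ℝ)) : ℝ × ℝ × ℝ) +ᵥ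
        ((1 / 2 : ℝ) • Simp)) ∪ ((((0 : ℝ), (1 / 2 : ℝ), (0 : ℝ)) : ℝ × ℝ × ℝ) +ᵥ
        ((1 / 2 : ℝ) • Simp)) ∪ ((((0 : ℝ), (0 : ℝ), (1 / 2 : ℝ)) : ℝ × ℝ × ℝ) +ᵥ
        ((1 / 2 : ℝ) • Simp)) := by
  rintro ⟨s, p, q⟩ ⟨h1, h2, h3, h4⟩
  simp only at h1 h2 h3 h4
  by_cases c0 : s + p + q ≤ 1 / 2
  · left; left; left; right
    refine ⟨(2 * s, 2 * p, 2 * q), ⟨by positivity, by positivity, by positivity, ?_⟩, ?_⟩
    · simp only; linarith
    · ext <;> simp
  by_cases c1 : 1 / 2 ≤ s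
  · left; left; right
    refine ⟨(1 / 2 : ℝ) • (2 * s - 1, 2 * p, 2 * q),
      ⟨(2 * s - 1, 2 * p, 2 * q), ⟨by linarith, by positivity, by positivity, ?_⟩, rfl⟩, ?_⟩
    · simp only; linarith
    · ext <;> simp; ring
  by_cases c2 : 1 / 2 ≤ p
  · left; right
    refine ⟨(1 / 2 : ℝ) • (2 * s, 2 * p - 1, 2 * q),
      ⟨(2 * s, 2 * p - 1, 2 * q), ⟨by positivity, by linarith, by positivity, ?_⟩, rfl⟩, ?_⟩
    · simp only; linarith
    · ext <;> simp; ring
  by_cases c3 : 1 / 2 ≤ q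
  · right
    refine ⟨(1 / 2 : ℝ) • (2 * s, 2 * p, 2 * q - 1),
      ⟨(2 * s, 2 * p, 2 * q - 1), ⟨by positivity, by positivity, by linarith, ?_⟩, rfl⟩, ?_⟩
    · simp only; linarith
    · ext <;> simp; ring
  · left; left; left; left
    push Not at c0 c1 c2 c3
    exact ⟨h1, h2, h3, h4, c1.le, c2.le, c3.le, c0.le⟩

/-- The core has at least half of the volume of the simplex. -/
lemma Core_ge : ENNReal.ofReal (1 / 2) * volume Simp ≤ volume Core := by
  have := haar_triple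
  have hcov := measure_mono (μ := (volume : Measure (ℝ × ℝ × ℝ))) Simp_subset_cover
  have h := hcov.trans ((measure_union_le _ _).trans (add_le_add ((measure_union_le _ _).trans
    (add_le_add ((measure_union_le _ _).trans (add_le_add (measure_union_le _ _) le_rfl))
      le_rfl)) le_rfl))
  rw [measure_vadd, measure_vadd, measure_vadd, half_Simp_volume] at h
  have hV := Simp_lt_top
  have hC : volume Core < ⊤ := (measure_mono Core_subset_Simp).trans_lt hV
  rw [← ENNReal.ofReal_toReal hV.ne, ← ENNReal.ofReal_toReal hC.ne] at h ⊢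
  set v := (volume Simp).toReal with hv
  set c := (volume Core).toReal with hc
  have hv0 : 0 ≤ v := ENNReal.toReal_nonneg
  have hc0 : 0 ≤ c := ENNReal.toReal_nonneg
  rw [← ENNReal.ofReal_mul (by norm_num), ← ENNReal.ofReal_add hc0 (by positivity),
    ← ENNReal.ofReal_add (by positivity) (by positivity),
    ← ENNReal.ofReal_add (by positivity) (by positivity),
    ← ENNReal.ofReal_add (by positivity) (by positivity),
    ENNReal.ofReal_le_ofReal_iff (by positivity)] at h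
  rw [← ENNReal.ofReal_mul (by norm_num)]
  apply ENNReal.ofReal_le_ofReal
  linarith

/-- Total mass of the model measure: `volume Simp + volume Core ≥ volume Tri / 2`. -/
lemma model_mass : ENNReal.ofReal (1 / 2) * volume Tri ≤ volume Simp + volume Core := by
  have h1 := Simp_ge
  have h2 := Core_ge
  have hT := Tri_lt_top
  have hV := Simp_lt_top
  have hC : volume Core < ⊤ := (measure_mono Core_subset_Simp).trans_lt hV
  rw [← ENNReal.ofReal_toReal hT.ne, ← ENNReal.ofReal_toReal hV.ne,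
    ← ENNReal.ofReal_mul (by norm_num),
    ENNReal.ofReal_le_ofReal_iff ENNReal.toReal_nonneg] at h1
  rw [← ENNReal.ofReal_toReal hV.ne, ← ENNReal.ofReal_toReal hC.ne,
    ← ENNReal.ofReal_mul (by norm_num),
    ENNReal.ofReal_le_ofReal_iff ENNReal.toReal_nonneg] at h2
  rw [← ENNReal.ofReal_toReal hT.ne, ← ENNReal.ofReal_toReal hV.ne, ← ENNReal.ofReal_toReal hC.ne,
    ← ENNReal.ofReal_mul (by norm_num),
    ← ENNReal.ofReal_add ENNReal.toReal_nonneg ENNReal.toReal_nonneg]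
  apply ENNReal.ofReal_le_ofReal
  linarith

end Vale.Agent.Lib.P243.H18
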