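import Mathlib
import Vale.Agent.Lib.P243.Defs
import Vale.Agent.Lib.P243.helper18.TetraModel
import Vale.Agent.Lib.P243.helper18.TetraAffine

/-!
Geometry of a tetrahedron in barycentric coordinates: the tetrahedron and its core are affine
images of the model sets `Simp` and `Core`, and the projection along an edge factors through the
model projection onto the triangle.
-/

namespace Vale.Agent.Lib.P243.H18

open MeasureTheory Set
open scoped RealInnerProductSpace

section general

variable {E : Type*} [AddCommGroup E] [Module ℝ E]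

/-- The tetrahedron with vertices `u 0, …, u 3`, in barycentric coordinates. -/
def tetra (u : Fin 4 → E) : Set E :=
  {x | ∃ t : Fin 4 → ℝ, (∀ i, 0 ≤ t i) ∧ ∑ i, t i = 1 ∧ ∑ i, t i • u i = x}

/-- The core of the tetrahedron: all barycentric coordinates are at most `1 / 2`. -/
def tcore (u : Fin 4 → E) : Set E :=
  {x | ∃ t : Fin 4 → ℝ, (∀ i, 0 ≤ t i ∧ t i ≤ 1 / 2) ∧ ∑ i, t i = 1 ∧ ∑ i, t i • u i = x}

lemma tcore_subset_tetra (u : Fin 4 → E) : tcore u ⊆ tetra u := by
  rintro x ⟨t, ht, h1, h2⟩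
  exact ⟨t, fun i => (ht i).1, h1, h2⟩

lemma convexHull_range_eq_tetra (u : Fin 4 → E) : convexHull ℝ (range u) = tetra u := by
  apply Subset.antisymm
  · refine convexHull_min ?_ ?_
    · rintro _ ⟨i, rfl⟩
      refine ⟨Pi.single i 1, fun j => ?_, by simp, by simp [Pi.single_apply]⟩
      by_cases h : j = i
      · subst h; simp
      · simp [h]
    · rintro x ⟨t, ht0, ht1, rfl⟩ y ⟨t', ht0', ht1', rfl⟩ α β hα hβ hαβ
      refine ⟨fun i => α * t i + β * t' i, fun i => ?_, ?_, ?_⟩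
      · exact add_nonneg (mul_nonneg hα (ht0 i)) (mul_nonneg hβ (ht0' i))
      · rw [Finset.sum_add_distrib, ← Finset.mul_sum, ← Finset.mul_sum, ht1, ht1', mul_one,
          mul_one, hαβ]
      · simp only [add_smul, mul_smul, Finset.sum_add_distrib, Finset.smul_sum]
  · rintro x ⟨t, ht0, ht1, rfl⟩
    exact (convex_convexHull ℝ (range u)).sum_mem (fun i _ => ht0 i) ht1
      (fun i _ => subset_convexHull ℝ _ (mem_range_self i))

lemma tcore_comp (u : Fin 4 → E) (σ : Equiv.Perm (Fin 4)) : tcore (u ∘ σ) = tcore u := by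
  ext x
  constructor
  · rintro ⟨t, ht, h1, h2⟩
    refine ⟨t ∘ σ.symm, fun i => ht _, ?_, ?_⟩
    · rw [← h1]; exact Equiv.sum_comp σ.symm t
    · rw [← h2, ← Equiv.sum_comp σ (fun i => (t ∘ σ.symm) i • u i)]
      simp
  · rintro ⟨t, ht, h1, h2⟩
    refine ⟨t ∘ σ, fun i => ht _, ?_, ?_⟩
    · rw [← h1]; exact Equiv.sum_comp σ t
    · rw [← h2, ← Equiv.sum_comp σ (fun i => t i • u i)]
      simp

/-- Linear part of the barycentric parametrization based at `u 0`. -/
def parL (u : Fin 4 → E) : ℝ × ℝ × ℝ →ₗ[ℝ] E :=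
  (LinearMap.fst ℝ ℝ (ℝ × ℝ)).smulRight (u 1 - u 0)
    + ((LinearMap.fst ℝ ℝ ℝ).comp (LinearMap.snd ℝ ℝ (ℝ × ℝ))).smulRight (u 2 - u 0)
    + ((LinearMap.snd ℝ ℝ ℝ).comp (LinearMap.snd ℝ ℝ (ℝ × ℝ))).smulRight (u 3 - u 0)

lemma parL_apply (u : Fin 4 → E) (z : ℝ × ℝ × ℝ) :
    parL u z = z.1 • (u 1 - u 0) + z.2.1 • (u 2 - u 0) + z.2.2 • (u 3 - u 0) := rfl

lemma par_image_Simp (u : Fin 4 → E) : (fun z => u 0 + parL u z) '' Simp = tetra u := by
  ext x
  constructor
  · rintro ⟨z, ⟨h1, h2, h3, h4⟩, rfl⟩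
    refine ⟨![1 - z.1 - z.2.1 - z.2.2, z.1, z.2.1, z.2.2], ?_, ?_, ?_⟩
    · intro i
      fin_cases i
      · simp; linarith
      · simpa using h1
      · simpa using h2
      · simpa using h3
    · simp [Fin.sum_univ_four]
      ring
    · simp only [Fin.sum_univ_four, parL_apply, Matrix.cons_val_zero, Matrix.cons_val_one,
        Matrix.cons_val]
      module
  · rintro ⟨t, ht0, ht1, rfl⟩
    rw [Fin.sum_univ_four] at ht1
    refine ⟨(t 1, t 2, t 3), ⟨ht0 1, ht0 2, ht0 3, ?_⟩, ?_⟩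
    · have := ht0 0
      simp only
      linarith
    · have h0 : t 0 = 1 - t 1 - t 2 - t 3 := by linarith
      simp only [Fin.sum_univ_four, parL_apply, h0]
      module

lemma par_image_Core (u : Fin 4 → E) : (fun z => u 0 + parL u z) '' Core = tcore u := by
  ext x
  constructor
  · rintro ⟨z, ⟨h1, h2, h3, h4, h5, h6, h7, h8⟩, rfl⟩
    refine ⟨![1 - z.1 - z.2.1 - z.2.2, z.1, z.2.1, z.2.2], ?_, ?_, ?_⟩
    · intro i
      fin_cases i
      · refine ⟨?_, ?_⟩ <;> simp <;> linarith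
      · refine ⟨?_, ?_⟩ <;> simp <;> linarith
      · refine ⟨?_, ?_⟩ <;> simp <;> linarith
      · refine ⟨?_, ?_⟩ <;> simp <;> linarith
    · simp [Fin.sum_univ_four]
      ring
    · simp only [Fin.sum_univ_four, parL_apply, Matrix.cons_val_zero, Matrix.cons_val_one,
        Matrix.cons_val]
      module
  · rintro ⟨t, ht0, ht1, rfl⟩
    rw [Fin.sum_univ_four] at ht1
    refine ⟨(t 1, t 2, t 3), ⟨(ht0 1).1, (ht0 2).1, (ht0 3).1, ?_, (ht0 1).2, (ht0 2).2,
      (ht0 3).2, ?_⟩, ?_⟩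
    · have := (ht0 0).1
      simp only
      linarith
    · have := (ht0 0).2
      simp only
      linarith
    · have h0 : t 0 = 1 - t 1 - t 2 - t 3 := by linarith
      simp only [Fin.sum_univ_four, parL_apply, h0]
      module

lemma parL_injective (u : Fin 4 → E) (hu : AffineIndependent ℝ u) :
    Function.Injective (parL u) := by
  rw [injective_iff_map_eq_zero]
  intro z hz
  rw [parL_apply] at hz
  have key := affineIndependent_iff.1 hu Finset.univ
    ![-(z.1 + z.2.1 + z.2.2), z.1, z.2.1, z.2.2] (by simp [Fin.sum_univ_four]; ring) (by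
      simp only [Fin.sum_univ_four, Matrix.cons_val_zero, Matrix.cons_val_one, Matrix.cons_val]
      rw [← hz]
      module)
  have k1 := key 1 (Finset.mem_univ _)
  have k2 := key 2 (Finset.mem_univ _)
  have k3 := key 3 (Finset.mem_univ _)
  simp at k1 k2 k3
  ext <;> simp [k1, k2, k3]

end general

end Vale.Agent.Lib.P243.H18
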