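import Mathlib
import Vale.Agent.Lib.P243.Defs
import Vale.Agent.Lib.P243.helper18.TetraGeom

/-!
The capture bound for one cylinder whose axis is parallel to the edge `u 0 u 1` of the
tetrahedron `tetra u` in Euclidean 3-space.
-/

namespace Vale.Agent.Lib.P243.H18

open MeasureTheory Set
open scoped RealInnerProductSpace

/-- Euclidean 3-space. -/
abbrev V3 : Type := EuclideanSpace ℝ (Fin 3)

/-- The plane coordinates as a linear map. -/
noncomputable def planeL (a b : V3) : V3 →ₗ[ℝ] ℝ × ℝ := (innerₛₗ ℝ a).prod (innerₛₗ ℝ b)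

lemma planeL_apply (a b x : V3) : planeL a b x = planeCoords a b x := by
  simp [planeL, planeCoords, real_inner_comm]

lemma planeL_surjective (a b : V3) (hab : OrthoPair a b) : Function.Surjective (planeL a b) := by
  intro w
  refine ⟨w.1 • a + w.2 • b, ?_⟩
  obtain ⟨ha, hb, hab0⟩ := hab
  have hba : inner ℝ b a = 0 := by rw [real_inner_comm]; exact hab0
  rw [planeL_apply]
  unfold planeCoords
  ext
  · simp [inner_add_left, inner_smul_left, ha, hba]
  · simp [inner_add_left, inner_smul_left, hb, hab0]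

/-- The planar linear map induced on the triangle coordinates. -/
noncomputable def gL (u : Fin 4 → V3) (a b : V3) : ℝ × ℝ →ₗ[ℝ] ℝ × ℝ :=
  (LinearMap.fst ℝ ℝ ℝ).smulRight (planeL a b (u 2 - u 0))
    + (LinearMap.snd ℝ ℝ ℝ).smulRight (planeL a b (u 3 - u 0))

lemma plane_par (u : Fin 4 → V3) (a b : V3) (h : planeL a b (u 1 - u 0) = 0) (z : ℝ × ℝ × ℝ) :
    planeL a b (u 0 + parL u z) = planeL a b (u 0) + gL u a b z.2 := by
  rw [map_add, parL_apply, map_add, map_add, map_smul, map_smul, map_smul, h, smul_zero,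
    zero_add]
  rfl

/-- The barycentric parametrization as a continuous linear equivalence. -/
noncomputable def parE (u : Fin 4 → V3) (hu : AffineIndependent ℝ u) : (ℝ × ℝ × ℝ) ≃L[ℝ] V3 :=
  (LinearMap.linearEquivOfInjective (parL u) (parL_injective u hu)
    (by simp)).toContinuousLinearEquiv

lemma parE_apply (u : Fin 4 → V3) (hu : AffineIndependent ℝ u) (z : ℝ × ℝ × ℝ) :
    parE u hu z = parL u z := rfl

lemma gL_surjective (u : Fin 4 → V3) (hu : AffineIndependent ℝ u) (a b : V3)
    (hab : OrthoPair a b) (h : planeL a b (u 1 - u 0) = 0) :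
    Function.Surjective (gL u a b) := by
  intro w
  obtain ⟨x, hx⟩ := planeL_surjective a b hab (planeL a b (u 0) + w)
  obtain ⟨z, hz⟩ := (parE u hu).surjective (x - u 0)
  refine ⟨z.2, ?_⟩
  have h1 := plane_par u a b h z
  rw [← parE_apply u hu, hz, add_sub_cancel, hx] at h1
  exact (add_left_cancel h1).symm

/-- The planar map as a continuous linear equivalence. -/
noncomputable def gE (u : Fin 4 → V3) (hu : AffineIndependent ℝ u) (a b : V3)
    (hab : OrthoPair a b) (h : planeL a b (u 1 - u 0) = 0) : (ℝ × ℝ) ≃L[ℝ] (ℝ × ℝ) :=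
  (LinearEquiv.ofBijective (gL u a b)
    ⟨LinearMap.injective_iff_surjective.2 (gL_surjective u hu a b hab h),
      gL_surjective u hu a b hab h⟩).toContinuousLinearEquiv

lemma gE_apply (u : Fin 4 → V3) (hu : AffineIndependent ℝ u) (a b : V3)
    (hab : OrthoPair a b) (h : planeL a b (u 1 - u 0) = 0) (y : ℝ × ℝ) :
    gE u hu a b hab h y = gL u a b y := rfl

lemma two_mul_half : (2 : ENNReal) * ENNReal.ofReal (1 / 2) = 1 := by
  rw [show (2 : ENNReal) = ENNReal.ofReal 2 by simp, ← ENNReal.ofReal_mul (by norm_num)]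
  norm_num

/-- Capture bound for a cylinder with axis parallel to the edge `u 0 u 1`. -/
lemma cyl_bound (u : Fin 4 → V3) (hu : AffineIndependent ℝ u) (a b : V3) (hab : OrthoPair a b)
    (hedge : planeCoords a b (u 0) = planeCoords a b (u 1)) (S : Set (ℝ × ℝ))
    (hS : MeasurableSet S) :
    volume (tetra u ∩ planeCoords a b ⁻¹' S) + volume (tcore u ∩ planeCoords a b ⁻¹' S)
      ≤ 2 * (volume (tetra u) + volume (tcore u))
        * (volume S / volume (planeCoords a b '' tetra u)) := by
  have h0 : planeL a b (u 1 - u 0) = 0 := by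
    rw [map_sub, planeL_apply, planeL_apply, hedge, sub_self]
  have := haar_triple
  obtain ⟨c, hc0, hctop, hc⟩ := exists_scale (volume : Measure (ℝ × ℝ × ℝ))
    (volume : Measure V3) (parE u hu) (u 0)
  obtain ⟨d, hd0, hdtop, hd⟩ := exists_scale (volume : Measure (ℝ × ℝ))
    (volume : Measure (ℝ × ℝ)) (gE u hu a b hab h0) (planeL a b (u 0))
  set F : ℝ × ℝ × ℝ → V3 := fun z => u 0 + parE u hu z with hF
  set G : ℝ × ℝ → ℝ × ℝ := fun y => planeL a b (u 0) + gE u hu a b hab h0 y with hG
  have hFG : ∀ z, planeCoords a b (F z) = G z.2 := fun z => by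
    rw [← planeL_apply]
    exact plane_par u a b h0 z
  have hT : tetra u = F '' Simp := (par_image_Simp u).symm
  have hO : tcore u = F '' Core := (par_image_Core u).symm
  have hGc : Continuous G := continuous_const.add (gE u hu a b hab h0).continuous
  set W := G ⁻¹' S with hW
  have hWm : MeasurableSet W := hGc.measurable hS
  have h1 : tetra u ∩ planeCoords a b ⁻¹' S = F '' (Simp ∩ Prod.snd ⁻¹' W) := by
    rw [hT]
    ext x
    constructor
    · rintro ⟨⟨z, hz, rfl⟩, hx⟩
      refine ⟨z, ⟨hz, ?_⟩, rfl⟩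
      change G z.2 ∈ S
      rw [← hFG]
      exact hx
    · rintro ⟨z, ⟨hz, hw⟩, rfl⟩
      refine ⟨⟨z, hz, rfl⟩, ?_⟩
      change planeCoords a b (F z) ∈ S
      rw [hFG]
      exact hw
  have h2 : tcore u ∩ planeCoords a b ⁻¹' S = F '' (Core ∩ Prod.snd ⁻¹' W) := by
    rw [hO]
    ext x
    constructor
    · rintro ⟨⟨z, hz, rfl⟩, hx⟩
      refine ⟨z, ⟨hz, ?_⟩, rfl⟩
      change G z.2 ∈ S
      rw [← hFG]
      exact hx
    · rintro ⟨z, ⟨hz, hw⟩, rfl⟩
      refine ⟨⟨z, hz, rfl⟩, ?_⟩
      change planeCoords a b (F z) ∈ S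
      rw [hFG]
      exact hw
  have hsum : volume (tetra u ∩ planeCoords a b ⁻¹' S)
      + volume (tcore u ∩ planeCoords a b ⁻¹' S) ≤ c * volume W := by
    rw [h1, h2, hc, hc, ← mul_add]
    gcongr
    exact (capture W hWm).trans (measure_mono inter_subset_left)
  have hdW : d * volume W ≤ volume S := by
    rw [← hd]
    exact measure_mono (image_preimage_subset G S)
  have hPT : planeCoords a b '' tetra u = G '' Tri := by
    rw [hT, image_image]
    ext w
    constructor
    · rintro ⟨z, hz, rfl⟩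
      exact ⟨z.2, ⟨hz.2.1, hz.2.2.1, by linarith [hz.1, hz.2.2.2]⟩, (hFG z).symm⟩
    · rintro ⟨y, hy, rfl⟩
      exact ⟨(0, y), ⟨le_rfl, hy.1, hy.2.1, by simpa using hy.2.2⟩, hFG _⟩
  have hV : c * (ENNReal.ofReal (1 / 2) * volume Tri)
      ≤ volume (tetra u) + volume (tcore u) := by
    rw [hT, hO, hc, hc, ← mul_add]
    gcongr
    exact model_mass
  rw [hPT, hd]
  calc volume (tetra u ∩ planeCoords a b ⁻¹' S) + volume (tcore u ∩ planeCoords a b ⁻¹' S)
      ≤ c * volume W := hsum
    _ = c * volume Tri * (volume W / volume Tri) := by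
        rw [mul_assoc, ENNReal.mul_div_cancel Tri_pos.ne' Tri_lt_top.ne]
    _ = 2 * (c * (ENNReal.ofReal (1 / 2) * volume Tri))
          * (d * volume W / (d * volume Tri)) := by
        rw [ENNReal.mul_div_mul_left _ _ hd0 hdtop]
        congr 1
        calc c * volume Tri = c * ((2 * ENNReal.ofReal (1 / 2)) * volume Tri) := by
              rw [two_mul_half, one_mul]
          _ = _ := by ring
    _ ≤ 2 * (volume (tetra u) + volume (tcore u)) * (volume S / (d * volume Tri)) := by
        gcongr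

end Vale.Agent.Lib.P243.H18
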