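import Mathlib

/-!
Algebraic core of the relative plank inequality for two directions: an explicit nonnegative
combination of the inequalities attached to the four sides and one diagonal of the quadrilateral
spanned by the four extreme points of a planar convex set.
-/

namespace Vale.Agent.Lib.P243.H18


/-- Core algebra: five segment inequalities with `Λ ≤ ρ` and the sign condition on `E`. -/
theorem core_alg (w₁ w₂ P Q Λ ρ α α₁ α₃ β₀ βm β₁ : ℝ)
    (hw₁ : 0 < w₁) (hw₂ : 0 < w₂)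
    (hP0 : 0 ≤ P) (hP1 : P ≤ w₁) (hQ0 : 0 ≤ Q) (hQ1 : Q ≤ w₁)
    (hΛ0 : 0 ≤ Λ) (hΛρ : Λ ≤ ρ) (hρ1 : ρ ≤ w₂)
    (hβ₀ : 0 ≤ β₀) (hβ₁ : 0 ≤ β₁)
    (hLB : P * Λ ≤ Λ * α₁ + P * β₀)
    (hBR : (w₁ - P) * ρ ≤ ρ * (α - α₁) + (w₁ - P) * (β₀ + βm))
    (hLT : Q * (w₂ - Λ) ≤ (w₂ - Λ) * α₃ + Q * (βm + β₁))
    (hTR : (w₁ - Q) * (w₂ - ρ) ≤ (w₂ - ρ) * (α - α₃) + (w₁ - Q) * β₁)
    (hLR : w₁ * (ρ - Λ) ≤ (ρ - Λ) * α + w₁ * βm)
    (hE : 0 ≤ P * ρ * (w₁ - Q) * (w₂ - Λ) - Q * Λ * (w₁ - P) * (w₂ - ρ)) :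
    w₁ * w₂ ≤ w₂ * α + w₁ * (β₀ + βm + β₁) := by
  have hP' : 0 ≤ w₁ - P := sub_nonneg.2 hP1
  have hQ' : 0 ≤ w₁ - Q := sub_nonneg.2 hQ1
  have hρ0 : 0 ≤ ρ := hΛ0.trans hΛρ
  have hΛ1 : Λ ≤ w₂ := hΛρ.trans hρ1
  have hΛ' : 0 ≤ w₂ - Λ := sub_nonneg.2 hΛ1
  have hρ' : 0 ≤ w₂ - ρ := sub_nonneg.2 hρ1
  by_cases hΛz : Λ = 0
  · -- `L` on the bottom side
    subst hΛz
    set D₂ : ℝ := Q * (w₂ - ρ) + (w₁ - Q) * w₂ with hD₂
    have hD₂0 : 0 ≤ D₂ := by positivity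
    rcases hD₂0.eq_or_lt with hz | hpos
    · have h1 : (w₁ - Q) * w₂ = 0 := by nlinarith [mul_nonneg hQ0 hρ', mul_nonneg hQ' hw₂.le]
      have hQw : Q = w₁ := by
        rcases mul_eq_zero.1 h1 with h | h
        · linarith
        · linarith
      have h2 : Q * (w₂ - ρ) = 0 := by nlinarith [mul_nonneg hQ0 hρ', mul_nonneg hQ' hw₂.le]
      have hρw : ρ = w₂ := by
        rcases mul_eq_zero.1 h2 with h | h
        · linarith
        · linarith
      subst hρw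
      nlinarith [mul_nonneg hw₁.le hβ₀, mul_nonneg hw₁.le hβ₁]
    · have key : D₂ * (w₁ * w₂) ≤ D₂ * (w₂ * α + w₁ * (βm + β₁)) := by
        have e1 := mul_le_mul_of_nonneg_left hLT (mul_nonneg hw₁.le hρ')
        have e2 := mul_le_mul_of_nonneg_left hTR (mul_nonneg hw₁.le hw₂.le)
        have e3 := mul_le_mul_of_nonneg_left hLR (mul_nonneg hQ' hw₂.le)
        rw [hD₂]
        linarith
      have := le_of_mul_le_mul_left key hpos
      nlinarith [mul_nonneg hw₁.le hβ₀]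
  · have hΛpos : 0 < Λ := lt_of_le_of_ne hΛ0 (Ne.symm hΛz)
    set D₁ : ℝ := P * ρ + (w₁ - P) * Λ with hD₁
    have hD₁pos : 0 < D₁ := by
      have : w₁ * Λ ≤ D₁ := by rw [hD₁]; nlinarith [mul_nonneg hP0 (sub_nonneg.2 hΛρ)]
      have h2 : 0 < w₁ * Λ := mul_pos hw₁ hΛpos
      linarith
    by_cases hρz : ρ = w₂
    · subst hρz
      have key : D₁ * (w₁ * ρ) ≤ D₁ * (ρ * α + w₁ * (β₀ + βm)) := by
        have e1 := mul_le_mul_of_nonneg_left hLB (mul_nonneg hw₁.le hρ0)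
        have e2 := mul_le_mul_of_nonneg_left hBR (mul_nonneg hw₁.le hΛ0)
        have e3 := mul_le_mul_of_nonneg_left hLR (mul_nonneg hP0 hρ0)
        rw [hD₁]
        linarith
      have := le_of_mul_le_mul_left key hD₁pos
      nlinarith [mul_nonneg hw₁.le hβ₁]
    · have hρlt : ρ < w₂ := lt_of_le_of_ne hρ1 hρz
      set D₂ : ℝ := Q * (w₂ - ρ) + (w₁ - Q) * (w₂ - Λ) with hD₂
      have hD₂pos : 0 < D₂ := by
        have : w₁ * (w₂ - ρ) ≤ D₂ := by
          rw [hD₂]; nlinarith [mul_nonneg hQ' (sub_nonneg.2 hΛρ)]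
        have h2 : 0 < w₁ * (w₂ - ρ) := mul_pos hw₁ (sub_pos.2 hρlt)
        linarith
      have key : (D₁ * D₂) * (w₁ * w₂) ≤ (D₁ * D₂) * (w₂ * α + w₁ * (β₀ + βm + β₁)) := by
        have e1 := mul_le_mul_of_nonneg_left hLB (mul_nonneg (mul_nonneg hw₁.le hD₂pos.le) hρ0)
        have e2 := mul_le_mul_of_nonneg_left hBR (mul_nonneg (mul_nonneg hw₁.le hD₂pos.le) hΛ0)
        have e3 := mul_le_mul_of_nonneg_left hLT (mul_nonneg (mul_nonneg hw₁.le hD₁pos.le) hρ')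
        have e4 := mul_le_mul_of_nonneg_left hTR (mul_nonneg (mul_nonneg hw₁.le hD₁pos.le) hΛ')
        have e5 := mul_le_mul_of_nonneg_left hLR hE
        rw [hD₂] at e1 e2
        rw [hD₁] at e3 e4
        rw [hD₁, hD₂]
        linarith
      exact le_of_mul_le_mul_left key (mul_pos hD₁pos hD₂pos)



lemma prod4_le {a b c d a' b' c' d' : ℝ} (ha : 0 ≤ a) (hb : 0 ≤ b) (hc : 0 ≤ c) (hd : 0 ≤ d)
    (h1 : a ≤ a') (h2 : b ≤ b') (h3 : c ≤ c') (h4 : d ≤ d') :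
    a * b * c * d ≤ a' * b' * c' * d' := by
  have ha' : 0 ≤ a' := ha.trans h1
  have hb' : 0 ≤ b' := hb.trans h2
  have hc' : 0 ≤ c' := hc.trans h3
  have h12 : a * b ≤ a' * b' := mul_le_mul h1 h2 hb ha'
  have h123 : a * b * c ≤ a' * b' * c' := mul_le_mul h12 h3 hc (mul_nonneg ha' hb')
  exact mul_le_mul h123 h4 hd (mul_nonneg (mul_nonneg ha' hb') hc')

/-- The combined algebraic statement: the six segment inequalities attached to the quadrilateral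
of extreme points imply the relative plank inequality. -/
theorem plank_alg (w₁ w₂ P Q Λ ρ α β aB aB' aT aT' aM bL bL' bR bR' bM : ℝ)
    (hw₁ : 0 < w₁) (hw₂ : 0 < w₂)
    (hP0 : 0 ≤ P) (hP1 : P ≤ w₁) (hQ0 : 0 ≤ Q) (hQ1 : Q ≤ w₁)
    (hΛ0 : 0 ≤ Λ) (hΛ1 : Λ ≤ w₂) (hρ0 : 0 ≤ ρ) (hρ1 : ρ ≤ w₂)
    (haB0 : 0 ≤ aB) (haB'0 : 0 ≤ aB') (haT0 : 0 ≤ aT) (haT'0 : 0 ≤ aT')
    (hbL0 : 0 ≤ bL) (hbL'0 : 0 ≤ bL') (hbR0 : 0 ≤ bR) (hbR'0 : 0 ≤ bR')
    (haB : aB + aB' = α) (haT : aT + aT' = α) (hbL : bL + bL' = β) (hbR : bR + bR' = β)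
    (haM1 : P ≤ Q → aT = aB + aM) (haM2 : Q ≤ P → aB = aT + aM)
    (hbM1 : Λ ≤ ρ → bR = bL + bM) (hbM2 : ρ ≤ Λ → bL = bR + bM)
    (hLB : P * Λ ≤ Λ * aB + P * bL)
    (hBR : (w₁ - P) * ρ ≤ ρ * aB' + (w₁ - P) * bR)
    (hLT : Q * (w₂ - Λ) ≤ (w₂ - Λ) * aT + Q * bL')
    (hTR : (w₁ - Q) * (w₂ - ρ) ≤ (w₂ - ρ) * aT' + (w₁ - Q) * bR')
    (hLR1 : Λ ≤ ρ → w₁ * (ρ - Λ) ≤ (ρ - Λ) * α + w₁ * bM)
    (hLR2 : ρ ≤ Λ → w₁ * (Λ - ρ) ≤ (Λ - ρ) * α + w₁ * bM)
    (hBT1 : P ≤ Q → w₂ * (Q - P) ≤ w₂ * aM + (Q - P) * β)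
    (hBT2 : Q ≤ P → w₂ * (P - Q) ≤ w₂ * aM + (P - Q) * β) :
    w₁ * w₂ ≤ w₂ * α + w₁ * β := by
  have hP' : 0 ≤ w₁ - P := sub_nonneg.2 hP1
  have hQ' : 0 ≤ w₁ - Q := sub_nonneg.2 hQ1
  have hΛ' : 0 ≤ w₂ - Λ := sub_nonneg.2 hΛ1
  have hρ' : 0 ≤ w₂ - ρ := sub_nonneg.2 hρ1
  rcases le_total Λ ρ with hΛρ | hρΛ
  · by_cases hE : 0 ≤ P * ρ * (w₁ - Q) * (w₂ - Λ) - Q * Λ * (w₁ - P) * (w₂ - ρ)
    · -- diagonal `LR`
      have hb := hbM1 hΛρ
      have h := core_alg w₁ w₂ P Q Λ ρ α aB aT bL bM bR' hw₁ hw₂ hP0 hP1 hQ0 hQ1 hΛ0 hΛρ hρ1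
        hbL0 hbR'0 hLB
        (by
          have e1 : α - aB = aB' := by linarith
          rw [e1, ← hb]; exact hBR)
        (by
          have e1 : bM + bR' = bL' := by linarith
          rw [e1]; exact hLT)
        (by
          have e1 : α - aT = aT' := by linarith
          rw [e1]; exact hTR)
        (hLR1 hΛρ) hE
      have e : bL + bM + bR' = β := by linarith
      rwa [e] at h
    · -- diagonal `BT`
      have hPQ : P ≤ Q := by
        by_contra hcon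
        have hQP : Q ≤ P := (not_le.1 hcon).le
        have := prod4_le hQ0 hΛ0 hP' hρ' hQP hΛρ (by linarith : w₁ - P ≤ w₁ - Q)
          (by linarith : w₂ - ρ ≤ w₂ - Λ)
        exact hE (by linarith)
      have ha := haM1 hPQ
      have h := core_alg w₂ w₁ Λ ρ P Q β bL bR aB aM aT' hw₂ hw₁ hΛ0 hΛ1 hρ0 hρ1 hP0 hPQ hQ1
        haB0 haT'0
        (by linarith)
        (by
          have e1 : β - bL = bL' := by linarith
          rw [e1, ← ha]; linarith)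
        (by
          have e1 : aM + aT' = aB' := by linarith
          rw [e1]; linarith)
        (by
          have e1 : β - bR = bR' := by linarith
          rw [e1]; linarith)
        (by have := hBT1 hPQ; linarith)
        (by
          have : Λ * Q * (w₂ - ρ) * (w₁ - P) - ρ * P * (w₂ - Λ) * (w₁ - Q)
              = -(P * ρ * (w₁ - Q) * (w₂ - Λ) - Q * Λ * (w₁ - P) * (w₂ - ρ)) := by ring
          rw [this]; linarith [not_le.1 hE])
      have e : aB + aM + aT' = α := by linarith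
      rw [e] at h
      linarith
  · by_cases hE : P * ρ * (w₁ - Q) * (w₂ - Λ) - Q * Λ * (w₁ - P) * (w₂ - ρ) ≤ 0
    · -- diagonal `LR`, reflected
      have hb := hbM2 hρΛ
      have h := core_alg w₁ w₂ (w₁ - P) (w₁ - Q) ρ Λ α aB' aT' bR bM bL' hw₁ hw₂ hP'
        (by linarith) hQ' (by linarith) hρ0 hρΛ hΛ1 hbR0 hbL'0 hBR
        (by
          have e1 : α - aB' = aB := by linarith
          have e2 : w₁ - (w₁ - P) = P := by ring
          rw [e1, e2, ← hb]; exact hLB)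
        (by
          have e1 : bM + bL' = bR' := by linarith
          rw [e1]; exact hTR)
        (by
          have e1 : α - aT' = aT := by linarith
          have e2 : w₁ - (w₁ - Q) = Q := by ring
          rw [e1, e2]; exact hLT)
        (hLR2 hρΛ)
        (by
          have : (w₁ - P) * Λ * (w₁ - (w₁ - Q)) * (w₂ - ρ)
                - (w₁ - Q) * ρ * (w₁ - (w₁ - P)) * (w₂ - Λ)
              = -(P * ρ * (w₁ - Q) * (w₂ - Λ) - Q * Λ * (w₁ - P) * (w₂ - ρ)) := by ring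
          rw [this]; linarith)
      have e : bR + bM + bL' = β := by linarith
      rwa [e] at h
    · -- diagonal `BT`, reflected
      have hQP : Q ≤ P := by
        by_contra hcon
        have hPQ : P ≤ Q := (not_le.1 hcon).le
        have := prod4_le hP0 hρ0 hQ' hΛ' hPQ hρΛ (by linarith : w₁ - Q ≤ w₁ - P)
          (by linarith : w₂ - Λ ≤ w₂ - ρ)
        exact hE (by linarith)
      have ha := haM2 hQP
      have h := core_alg w₂ w₁ (w₂ - Λ) (w₂ - ρ) Q P β bL' bR' aT aM aB' hw₂ hw₁ hΛ'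
        (by linarith) hρ' (by linarith) hQ0 hQP hP1 haT0 haB'0
        (by linarith)
        (by
          have e1 : β - bL' = bL := by linarith
          have e2 : w₂ - (w₂ - Λ) = Λ := by ring
          rw [e1, e2, ← ha]; linarith)
        (by
          have e1 : aM + aB' = aT' := by linarith
          rw [e1]; linarith)
        (by
          have e1 : β - bR' = bR := by linarith
          have e2 : w₂ - (w₂ - ρ) = ρ := by ring
          rw [e1, e2]; linarith)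
        (by have := hBT2 hQP; linarith)
        (by
          have : (w₂ - Λ) * P * (w₂ - (w₂ - ρ)) * (w₁ - Q)
                - (w₂ - ρ) * Q * (w₂ - (w₂ - Λ)) * (w₁ - P)
              = P * ρ * (w₁ - Q) * (w₂ - Λ) - Q * Λ * (w₁ - P) * (w₂ - ρ) := by ring
          rw [this]; linarith [not_le.1 hE])
      have e : aT + aM + aB' = α := by linarith
      rw [e] at h
      linarith


end Vale.Agent.Lib.P243.H18
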