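import Mathlib
import Vale.Agent.Lib.P243.helper18.TwoDirAlg

/-!
The relative plank inequality for two directions in the plane: if a convex set `Q ⊆ ℝ × ℝ`
is covered by `A₁ × ℝ` and `ℝ × A₂`, with `A₁`, `A₂` arbitrary subsets of the line, then the
Lebesgue outer measures of `A₁`, `A₂` inside the two coordinate extents of `Q`, divided by the
lengths of these extents, add up to at least one.
-/

namespace Vale.Agent.Lib.P243.H18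

open MeasureTheory Set

/-- Lebesgue outer measure of the part of `A` in the interval `(a, b]`, as a real number. -/
noncomputable def G (A : Set ℝ) (a b : ℝ) : ℝ := (volume (A ∩ Ioc a b)).toReal

lemma G_nonneg (A : Set ℝ) (a b : ℝ) : 0 ≤ G A a b := ENNReal.toReal_nonneg

lemma vol_inter_Ioc_ne_top (A : Set ℝ) (a b : ℝ) : volume (A ∩ Ioc a b) ≠ ⊤ :=
  ((measure_mono inter_subset_right).trans_lt measure_Ioc_lt_top).ne

lemma vol_Ioc_add (A : Set ℝ) {a b c : ℝ} (hab : a ≤ b) (hbc : b ≤ c) :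
    volume (A ∩ Ioc a c) = volume (A ∩ Ioc a b) + volume (A ∩ Ioc b c) := by
  have h := measure_inter_add_sdiff (μ := volume) (A ∩ Ioc a c)
    (measurableSet_Ioc : MeasurableSet (Ioc a b))
  have e1 : A ∩ Ioc a c ∩ Ioc a b = A ∩ Ioc a b := by
    ext x
    simp only [mem_inter_iff, mem_Ioc]
    constructor
    · rintro ⟨⟨hA, -, -⟩, h2, h3⟩; exact ⟨hA, h2, h3⟩
    · rintro ⟨hA, h2, h3⟩; exact ⟨⟨hA, h2, h3.trans hbc⟩, h2, h3⟩
  have e2 : (A ∩ Ioc a c) \ Ioc a b = A ∩ Ioc b c := by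
    ext x
    simp only [mem_sdiff, mem_inter_iff, mem_Ioc, not_and, not_le]
    constructor
    · rintro ⟨⟨hA, h1, h2⟩, h3⟩; exact ⟨hA, h3 h1, h2⟩
    · rintro ⟨hA, h1, h2⟩; exact ⟨⟨hA, lt_of_le_of_lt hab h1, h2⟩, fun _ => h1⟩
  rw [e1, e2] at h
  exact h.symm

lemma G_add (A : Set ℝ) {a b c : ℝ} (hab : a ≤ b) (hbc : b ≤ c) :
    G A a b + G A b c = G A a c := by
  unfold G
  rw [vol_Ioc_add A hab hbc,
    ENNReal.toReal_add (vol_inter_Ioc_ne_top A a b) (vol_inter_Ioc_ne_top A b c)]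

lemma G_le_vol (A : Set ℝ) (a b : ℝ) : ENNReal.ofReal (G A a b) ≤ volume A := by
  unfold G
  rw [ENNReal.ofReal_toReal (vol_inter_Ioc_ne_top A a b)]
  exact measure_mono inter_subset_left

lemma vol_param (S : Set ℝ) (x₀ d : ℝ) (hd : d ≠ 0) :
    volume {t : ℝ | x₀ + t * d ∈ S} = ENNReal.ofReal |d⁻¹| * volume S := by
  have h : {t : ℝ | x₀ + t * d ∈ S} = (· * d) ⁻¹' ((fun h => x₀ + h) ⁻¹' S) := rfl
  rw [h, Real.volume_preimage_mul_right hd, measure_preimage_add]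

lemma param_mem_uIoc {x₀ x₁ t : ℝ} (hne : x₁ - x₀ ≠ 0) (ht : t ∈ Ioo (0 : ℝ) 1) :
    x₀ + t * (x₁ - x₀) ∈ uIoc x₀ x₁ := by
  rcases lt_or_gt_of_ne hne with h | h
  · have hlt : x₁ < x₀ := by linarith
    rw [uIoc_of_ge hlt.le]
    constructor <;> nlinarith [ht.1, ht.2]
  · have hlt : x₀ < x₁ := by linarith
    rw [uIoc_of_le hlt.le]
    constructor <;> nlinarith [ht.1, ht.2]

/-- The basic inequality attached to one segment. -/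
theorem seg_cover (A₁ A₂ : Set ℝ) (x₀ x₁ y₀ y₁ : ℝ)
    (h : ∀ t ∈ Ioo (0 : ℝ) 1, x₀ + t * (x₁ - x₀) ∈ A₁ ∨ y₀ + t * (y₁ - y₀) ∈ A₂) :
    |x₁ - x₀| * |y₁ - y₀| ≤ |y₁ - y₀| * (volume (A₁ ∩ uIoc x₀ x₁)).toReal
      + |x₁ - x₀| * (volume (A₂ ∩ uIoc y₀ y₁)).toReal := by
  by_cases hx : x₁ - x₀ = 0
  · rw [hx, abs_zero, zero_mul, zero_mul, add_zero]
    positivity
  by_cases hy : y₁ - y₀ = 0
  · rw [hy, abs_zero, mul_zero, zero_mul, zero_add]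
    positivity
  set g₁ : ℝ := (volume (A₁ ∩ uIoc x₀ x₁)).toReal with hg₁
  set g₂ : ℝ := (volume (A₂ ∩ uIoc y₀ y₁)).toReal with hg₂
  have hfin₁ : volume (A₁ ∩ uIoc x₀ x₁) ≠ ⊤ := by
    rw [uIoc]; exact vol_inter_Ioc_ne_top _ _ _
  have hfin₂ : volume (A₂ ∩ uIoc y₀ y₁) ≠ ⊤ := by
    rw [uIoc]; exact vol_inter_Ioc_ne_top _ _ _
  have hsub : Ioo (0 : ℝ) 1 ⊆ {t : ℝ | x₀ + t * (x₁ - x₀) ∈ A₁ ∩ uIoc x₀ x₁}
      ∪ {t : ℝ | y₀ + t * (y₁ - y₀) ∈ A₂ ∩ uIoc y₀ y₁} := by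
    intro t ht
    rcases h t ht with h1 | h2
    · exact Or.inl ⟨h1, param_mem_uIoc hx ht⟩
    · exact Or.inr ⟨h2, param_mem_uIoc hy ht⟩
  have h1 : (1 : ENNReal) ≤ ENNReal.ofReal |(x₁ - x₀)⁻¹| * volume (A₁ ∩ uIoc x₀ x₁)
      + ENNReal.ofReal |(y₁ - y₀)⁻¹| * volume (A₂ ∩ uIoc y₀ y₁) := by
    have hm := (measure_mono hsub).trans (measure_union_le (μ := volume) _ _)
    rw [vol_param _ x₀ _ hx, vol_param _ y₀ _ hy, Real.volume_Ioo] at hm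
    simpa using hm
  have h2 : (1 : ℝ) ≤ |(x₁ - x₀)⁻¹| * g₁ + |(y₁ - y₀)⁻¹| * g₂ := by
    rw [← ENNReal.ofReal_toReal hfin₁, ← ENNReal.ofReal_toReal hfin₂,
      ← ENNReal.ofReal_mul (abs_nonneg _), ← ENNReal.ofReal_mul (abs_nonneg _),
      ← ENNReal.ofReal_add (by positivity) (by positivity)] at h1
    have h3 : ENNReal.ofReal 1 ≤ ENNReal.ofReal (|(x₁ - x₀)⁻¹| * g₁ + |(y₁ - y₀)⁻¹| * g₂) := by
      rw [ENNReal.ofReal_one]; exact h1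
    exact (ENNReal.ofReal_le_ofReal_iff (by positivity)).1 h3
  have hxpos : 0 < |x₁ - x₀| := abs_pos.2 hx
  have hypos : 0 < |y₁ - y₀| := abs_pos.2 hy
  rw [abs_inv, abs_inv] at h2
  have h4 := mul_le_mul_of_nonneg_left h2 (mul_pos hxpos hypos).le
  have e : |x₁ - x₀| * |y₁ - y₀| * (|x₁ - x₀|⁻¹ * g₁ + |y₁ - y₀|⁻¹ * g₂)
      = |y₁ - y₀| * g₁ + |x₁ - x₀| * g₂ := by
    field_simp
  rw [e, mul_one] at h4
  exact h4

section convex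

variable {Q : Set (ℝ × ℝ)} {A₁ A₂ : Set ℝ}

lemma seg_param (hQ : Convex ℝ Q) (hcov : ∀ z ∈ Q, z.1 ∈ A₁ ∨ z.2 ∈ A₂) {x₀ x₁ y₀ y₁ : ℝ}
    (h₀ : (x₀, y₀) ∈ Q) (h₁ : (x₁, y₁) ∈ Q) :
    ∀ t ∈ Ioo (0 : ℝ) 1, x₀ + t * (x₁ - x₀) ∈ A₁ ∨ y₀ + t * (y₁ - y₀) ∈ A₂ := by
  intro t ht
  have hmem : (1 - t) • ((x₀, y₀) : ℝ × ℝ) + t • ((x₁, y₁) : ℝ × ℝ) ∈ Q :=
    hQ h₀ h₁ (by linarith [ht.2]) ht.1.le (by ring)
  have e : (1 - t) • ((x₀, y₀) : ℝ × ℝ) + t • ((x₁, y₁) : ℝ × ℝ)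
      = (x₀ + t * (x₁ - x₀), y₀ + t * (y₁ - y₀)) := by
    ext
    · simp only [Prod.smul_mk, Prod.mk_add_mk, smul_eq_mul]; ring
    · simp only [Prod.smul_mk, Prod.mk_add_mk, smul_eq_mul]; ring
  rw [e] at hmem
  exact hcov _ hmem

/-- Segment of nonnegative slope from `(a, c)` to `(b, d)`. -/
lemma seg_pos (hQ : Convex ℝ Q) (hcov : ∀ z ∈ Q, z.1 ∈ A₁ ∨ z.2 ∈ A₂) {a b c d : ℝ}
    (hab : a ≤ b) (hcd : c ≤ d) (h₀ : (a, c) ∈ Q) (h₁ : (b, d) ∈ Q) :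
    (b - a) * (d - c) ≤ (d - c) * G A₁ a b + (b - a) * G A₂ c d := by
  have h := seg_cover A₁ A₂ a b c d (seg_param hQ hcov h₀ h₁)
  rw [abs_of_nonneg (sub_nonneg.2 hab), abs_of_nonneg (sub_nonneg.2 hcd), uIoc_of_le hab,
    uIoc_of_le hcd] at h
  exact h

/-- Segment of nonpositive slope from `(a, d)` to `(b, c)`. -/
lemma seg_neg (hQ : Convex ℝ Q) (hcov : ∀ z ∈ Q, z.1 ∈ A₁ ∨ z.2 ∈ A₂) {a b c d : ℝ}
    (hab : a ≤ b) (hcd : c ≤ d) (h₀ : (a, d) ∈ Q) (h₁ : (b, c) ∈ Q) :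
    (b - a) * (d - c) ≤ (d - c) * G A₁ a b + (b - a) * G A₂ c d := by
  have h := seg_cover A₁ A₂ a b d c (seg_param hQ hcov h₀ h₁)
  rw [abs_of_nonneg (sub_nonneg.2 hab), abs_of_nonpos (sub_nonpos.2 hcd), uIoc_of_le hab,
    uIoc_of_ge hcd, neg_sub] at h
  exact h

/-- **Relative plank inequality for two directions.**  Let `Q ⊆ ℝ × ℝ` be convex and covered by
`A₁ × ℝ` and `ℝ × A₂`.  If `Q` contains points on the four sides of the rectangle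
`[x₀, x₁] × [y₀, y₁]`, then the parts of `A₁` in `(x₀, x₁]` and of `A₂` in `(y₀, y₁]` have
relative lengths adding up to at least one. -/
theorem two_dir_plank (hQ : Convex ℝ Q) (hcov : ∀ z ∈ Q, z.1 ∈ A₁ ∨ z.2 ∈ A₂)
    (x₀ x₁ y₀ y₁ xB xT yL yR : ℝ)
    (hL : (x₀, yL) ∈ Q) (hR : (x₁, yR) ∈ Q) (hB : (xB, y₀) ∈ Q) (hT : (xT, y₁) ∈ Q)
    (hx : x₀ < x₁) (hy : y₀ < y₁)
    (hxB : xB ∈ Icc x₀ x₁) (hxT : xT ∈ Icc x₀ x₁) (hyL : yL ∈ Icc y₀ y₁)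
    (hyR : yR ∈ Icc y₀ y₁) :
    (x₁ - x₀) * (y₁ - y₀) ≤ (y₁ - y₀) * G A₁ x₀ x₁ + (x₁ - x₀) * G A₂ y₀ y₁ := by
  have hLB := seg_neg hQ hcov hxB.1 hyL.1 hL hB
  have hBR := seg_pos hQ hcov hxB.2 hyR.1 hB hR
  have hLT := seg_pos hQ hcov hxT.1 hyL.2 hL hT
  have hTR := seg_neg hQ hcov hxT.2 hyR.2 hT hR
  refine plank_alg (x₁ - x₀) (y₁ - y₀) (xB - x₀) (xT - x₀) (yL - y₀) (yR - y₀)
    (G A₁ x₀ x₁) (G A₂ y₀ y₁) (G A₁ x₀ xB) (G A₁ xB x₁) (G A₁ x₀ xT) (G A₁ xT x₁)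
    (G A₁ (min xB xT) (max xB xT)) (G A₂ y₀ yL) (G A₂ yL y₁) (G A₂ y₀ yR) (G A₂ yR y₁)
    (G A₂ (min yL yR) (max yL yR)) (sub_pos.2 hx) (sub_pos.2 hy)
    (sub_nonneg.2 hxB.1) (by linarith [hxB.2]) (sub_nonneg.2 hxT.1) (by linarith [hxT.2])
    (sub_nonneg.2 hyL.1) (by linarith [hyL.2]) (sub_nonneg.2 hyR.1) (by linarith [hyR.2])
    (G_nonneg _ _ _) (G_nonneg _ _ _) (G_nonneg _ _ _) (G_nonneg _ _ _)
    (G_nonneg _ _ _) (G_nonneg _ _ _) (G_nonneg _ _ _) (G_nonneg _ _ _)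
    (G_add A₁ hxB.1 hxB.2) (G_add A₁ hxT.1 hxT.2) (G_add A₂ hyL.1 hyL.2) (G_add A₂ hyR.1 hyR.2)
    ?_ ?_ ?_ ?_ hLB ?_ ?_ ?_ ?_ ?_ ?_ ?_
  · intro h
    have h' : xB ≤ xT := by linarith
    rw [min_eq_left h', max_eq_right h']
    exact (G_add A₁ hxB.1 h').symm
  · intro h
    have h' : xT ≤ xB := by linarith
    rw [min_eq_right h', max_eq_left h']
    exact (G_add A₁ hxT.1 h').symm
  · intro h
    have h' : yL ≤ yR := by linarith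
    rw [min_eq_left h', max_eq_right h']
    exact (G_add A₂ hyL.1 h').symm
  · intro h
    have h' : yR ≤ yL := by linarith
    rw [min_eq_right h', max_eq_left h']
    exact (G_add A₂ hyR.1 h').symm
  · have e : x₁ - x₀ - (xB - x₀) = x₁ - xB := by ring
    rw [e]; exact hBR
  · have e : y₁ - y₀ - (yL - y₀) = y₁ - yL := by ring
    rw [e]; exact hLT
  · have e1 : x₁ - x₀ - (xT - x₀) = x₁ - xT := by ring
    have e2 : y₁ - y₀ - (yR - y₀) = y₁ - yR := by ring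
    rw [e1, e2]; exact hTR
  · intro h
    have h' : yL ≤ yR := by linarith
    rw [min_eq_left h', max_eq_right h']
    have e : yR - y₀ - (yL - y₀) = yR - yL := by ring
    rw [e]
    exact seg_pos hQ hcov hx.le h' hL hR
  · intro h
    have h' : yR ≤ yL := by linarith
    rw [min_eq_right h', max_eq_left h']
    have e : yL - y₀ - (yR - y₀) = yL - yR := by ring
    rw [e]
    exact seg_neg hQ hcov hx.le h' hL hR
  · intro h
    have h' : xB ≤ xT := by linarith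
    rw [min_eq_left h', max_eq_right h']
    have e : xT - x₀ - (xB - x₀) = xT - xB := by ring
    rw [e]
    have := seg_pos hQ hcov h' hy.le hB hT
    linarith
  · intro h
    have h' : xT ≤ xB := by linarith
    rw [min_eq_right h', max_eq_left h']
    have e : xB - x₀ - (xT - x₀) = xB - xT := by ring
    rw [e]
    have := seg_neg hQ hcov h' hy.le hT hB
    linarith

end convex

end Vale.Agent.Lib.P243.H18
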