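import Mathlib
import Vale.Agent.Lib.P243.Slab
import Vale.Agent.Lib.P243.helper18.TwoDirPlank

/-!
Directionwise covering bound for two families of parallel chords: a compact convex set cut by
the level sets of `x ↦ ⟪x, e⟫` and covered by two sets given in the slab coordinates
`(⟪x, e⟫, ⟪x, n₁⟫)` and `(⟪x, e⟫, ⟪x, n₂⟫)`.
-/

namespace Vale.Agent.Lib.P243.H18

open scoped RealInnerProductSpace
open MeasureTheory Set

variable {F : Type*} [NormedAddCommGroup F] [InnerProductSpace ℝ F]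

lemma tent_lintegral (τ₀ τ₁ : ℝ) (hτ : τ₀ < τ₁) :
    ∫⁻ τ in Ioc τ₀ τ₁, ENNReal.ofReal (2 * min (τ - τ₀) (τ₁ - τ) / (τ₁ - τ₀) ^ 2)
      = ENNReal.ofReal (1 / 2) := by
  have hHpos : 0 < τ₁ - τ₀ := sub_pos.2 hτ
  have hcontf : Continuous fun τ : ℝ => 2 * min (τ - τ₀) (τ₁ - τ) / (τ₁ - τ₀) ^ 2 := by
    fun_prop
  have hint : IntegrableOn (fun τ : ℝ => 2 * min (τ - τ₀) (τ₁ - τ) / (τ₁ - τ₀) ^ 2)
      (Ioc τ₀ τ₁) volume := hcontf.integrableOn_Icc.mono_set Ioc_subset_Icc_self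
  have hnn : 0 ≤ᵐ[volume.restrict (Ioc τ₀ τ₁)]
      (fun τ : ℝ => 2 * min (τ - τ₀) (τ₁ - τ) / (τ₁ - τ₀) ^ 2) := by
    refine ae_restrict_of_forall_mem measurableSet_Ioc fun τ hτm => ?_
    have : 0 ≤ min (τ - τ₀) (τ₁ - τ) := le_min (by linarith [hτm.1]) (by linarith [hτm.2])
    change 0 ≤ 2 * min (τ - τ₀) (τ₁ - τ) / (τ₁ - τ₀) ^ 2
    positivity
  rw [← ofReal_integral_eq_lintegral_ofReal hint hnn,
    ← intervalIntegral.integral_of_le hτ.le]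
  congr 1
  have : ∀ τ : ℝ, 2 * min (τ - τ₀) (τ₁ - τ) / (τ₁ - τ₀) ^ 2
      = (2 / (τ₁ - τ₀) ^ 2) * min (τ - τ₀) (τ₁ - τ) := fun τ => by ring
  simp only [this]
  rw [intervalIntegral.integral_const_mul, tent_integral τ₀ τ₁ hτ.le]
  field_simp
  norm_num

/-- The inequality in one section: the relative lengths of the two sections of the covering
sets, measured against the areas of the two shadows, are at least the tent function. -/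
lemma slice_rel (K : Set F) (hKc : IsCompact K) (hK : Convex ℝ K) (e n₁ n₂ : F)
    (S₁ S₂ : Set (ℝ × ℝ))
    (hcov : ∀ x ∈ K, (⟪x, e⟫, ⟪x, n₁⟫) ∈ S₁ ∨ (⟪x, e⟫, ⟪x, n₂⟫) ∈ S₂)
    (τ₀ τ₁ : ℝ) (x₀ x₁ : F) (hx₀ : x₀ ∈ K) (hx₁ : x₁ ∈ K) (h₀ : ⟪x₀, e⟫ = τ₀)
    (h₁ : ⟪x₁, e⟫ = τ₁) (hlo : ∀ x ∈ K, τ₀ ≤ ⟪x, e⟫) (hhi : ∀ x ∈ K, ⟪x, e⟫ ≤ τ₁)
    (hV₁ : 0 < volume (shadow K e n₁)) (hV₂ : 0 < volume (shadow K e n₂))
    (τ : ℝ) (hc₀ : τ₀ < τ) (hc₁ : τ < τ₁) :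
    ENNReal.ofReal (2 * min (τ - τ₀) (τ₁ - τ) / (τ₁ - τ₀) ^ 2)
      ≤ volume (Prod.mk τ ⁻¹' S₁) / volume (shadow K e n₁)
        + volume (Prod.mk τ ⁻¹' S₂) / volume (shadow K e n₂) := by
  set H : ℝ := τ₁ - τ₀ with hH
  have hHpos : 0 < H := by rw [hH]; linarith
  set m : ℝ := min (τ - τ₀) (τ₁ - τ) with hm
  have hmpos : 0 < m := lt_min (by linarith) (by linarith)
  -- the section of `K`
  set Kτ : Set F := K ∩ {x : F | ⟪x, e⟫ = τ} with hKτ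
  have hKτc : IsCompact Kτ :=
    hKc.inter_right (isClosed_eq (continuous_id.inner continuous_const) continuous_const)
  have hKτne : Kτ.Nonempty := by
    obtain ⟨x, hx, hxe⟩ := exists_mem_height hK e hx₀ hx₁ (by rw [h₀]; exact hc₀)
      (by rw [h₁]; exact hc₁)
    exact ⟨x, hx, hxe⟩
  have hKτconv : Convex ℝ Kτ := by
    apply hK.inter
    intro x hx y hy α β hα hβ hαβ
    change ⟪α • x + β • y, e⟫ = τ
    rw [inner_add_left, inner_smul_left, inner_smul_left, (hx : ⟪x, e⟫ = τ),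
      (hy : ⟪y, e⟫ = τ)]
    simp only [RCLike.conj_to_real]
    rw [← add_mul, hαβ, one_mul]
  have hcont : ∀ n : F, ContinuousOn (fun x : F => ⟪x, n⟫) Kτ := fun n =>
    (continuous_id.inner continuous_const).continuousOn
  obtain ⟨p₁, hp₁, hp₁max⟩ := hKτc.exists_isMaxOn hKτne (hcont n₁)
  obtain ⟨q₁, hq₁, hq₁min⟩ := hKτc.exists_isMinOn hKτne (hcont n₁)
  obtain ⟨p₂, hp₂, hp₂max⟩ := hKτc.exists_isMaxOn hKτne (hcont n₂)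
  obtain ⟨q₂, hq₂, hq₂min⟩ := hKτc.exists_isMinOn hKτne (hcont n₂)
  have hmax₁ : ∀ x ∈ Kτ, ⟪x, n₁⟫ ≤ ⟪p₁, n₁⟫ := fun x hx => hp₁max hx
  have hmin₁ : ∀ x ∈ Kτ, ⟪q₁, n₁⟫ ≤ ⟪x, n₁⟫ := fun x hx => hq₁min hx
  have hmax₂ : ∀ x ∈ Kτ, ⟪x, n₂⟫ ≤ ⟪p₂, n₂⟫ := fun x hx => hp₂max hx
  have hmin₂ : ∀ x ∈ Kτ, ⟪q₂, n₂⟫ ≤ ⟪x, n₂⟫ := fun x hx => hq₂min hx
  -- the shadows are wide where the section is wide
  have hbound : ∀ (n p q : F), (∀ x ∈ Kτ, ⟪x, n⟫ ≤ ⟪p, n⟫) → (∀ x ∈ Kτ, ⟪q, n⟫ ≤ ⟪x, n⟫) →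
      p ∈ Kτ → (volume (shadow K e n)).toReal * (2 * m) ≤ H ^ 2 * (⟪p, n⟫ - ⟪q, n⟫) := by
    intro n p q hmax hmin hp
    have hW0 : 0 ≤ ⟪p, n⟫ - ⟪q, n⟫ := sub_nonneg.2 (hmin p hp)
    have hfin : volume (shadow K e n) ≠ ⊤ := (isCompact_shadow hKc e n).measure_lt_top.ne
    have hsab := shadow_area_bound K hKc hK e n τ₀ τ₁ x₀ x₁ hx₀ hx₁ h₀ h₁ hlo hhi τ hc₀ hc₁
      (⟪p, n⟫ - ⟪q, n⟫) (by
        intro a ha b hb hae hbe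
        rw [inner_sub_left]
        have h1 := hmax a ⟨ha, hae⟩
        have h2 := hmin b ⟨hb, hbe⟩
        linarith)
    rw [← ENNReal.ofReal_toReal hfin, ← ENNReal.ofReal_mul ENNReal.toReal_nonneg] at hsab
    exact (ENNReal.ofReal_le_ofReal_iff (by positivity)).1 hsab
  have hb₁ := hbound n₁ p₁ q₁ hmax₁ hmin₁ hp₁
  have hb₂ := hbound n₂ p₂ q₂ hmax₂ hmin₂ hp₂
  set v₁ : ℝ := (volume (shadow K e n₁)).toReal with hv₁
  set v₂ : ℝ := (volume (shadow K e n₂)).toReal with hv₂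
  have hfin₁ : volume (shadow K e n₁) ≠ ⊤ := (isCompact_shadow hKc e n₁).measure_lt_top.ne
  have hfin₂ : volume (shadow K e n₂) ≠ ⊤ := (isCompact_shadow hKc e n₂).measure_lt_top.ne
  have hv₁pos : 0 < v₁ := ENNReal.toReal_pos hV₁.ne' hfin₁
  have hv₂pos : 0 < v₂ := ENNReal.toReal_pos hV₂.ne' hfin₂
  set W₁ : ℝ := ⟪p₁, n₁⟫ - ⟪q₁, n₁⟫ with hW₁
  set W₂ : ℝ := ⟪p₂, n₂⟫ - ⟪q₂, n₂⟫ with hW₂
  have hW₁pos : 0 < W₁ := by
    have : 0 < v₁ * (2 * m) := by positivity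
    have h2 : 0 < H ^ 2 * W₁ := lt_of_lt_of_le this hb₁
    exact (pos_iff_pos_of_mul_pos h2).1 (by positivity)
  have hW₂pos : 0 < W₂ := by
    have : 0 < v₂ * (2 * m) := by positivity
    have h2 : 0 < H ^ 2 * W₂ := lt_of_lt_of_le this hb₂
    exact (pos_iff_pos_of_mul_pos h2).1 (by positivity)
  -- the planar picture of the section
  set Q : Set (ℝ × ℝ) := {w : ℝ × ℝ | ∃ z ∈ Kτ, ⟪z, n₁⟫ = w.1 ∧ ⟪z, n₂⟫ = w.2} with hQdef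
  have hQconv : Convex ℝ Q := by
    rintro w ⟨z, hz, h1, h2⟩ w' ⟨z', hz', h1', h2'⟩ a b ha hb hab
    refine ⟨a • z + b • z', hKτconv hz hz' ha hb hab, ?_, ?_⟩
    · rw [inner_add_left, inner_smul_left, inner_smul_left, h1, h1']
      simp
    · rw [inner_add_left, inner_smul_left, inner_smul_left, h2, h2']
      simp
  have hQcov : ∀ w ∈ Q, w.1 ∈ Prod.mk τ ⁻¹' S₁ ∨ w.2 ∈ Prod.mk τ ⁻¹' S₂ := by
    rintro w ⟨z, hz, h1, h2⟩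
    have hze : ⟪z, e⟫ = τ := hz.2
    rcases hcov z hz.1 with h | h
    · left
      rw [hze, h1] at h
      exact h
    · right
      rw [hze, h2] at h
      exact h
  have h2D := two_dir_plank hQconv hQcov ⟪q₁, n₁⟫ ⟪p₁, n₁⟫ ⟪q₂, n₂⟫ ⟪p₂, n₂⟫ ⟪q₂, n₁⟫ ⟪p₂, n₁⟫
    ⟪q₁, n₂⟫ ⟪p₁, n₂⟫ ⟨q₁, hq₁, rfl, rfl⟩ ⟨p₁, hp₁, rfl, rfl⟩ ⟨q₂, hq₂, rfl, rfl⟩
    ⟨p₂, hp₂, rfl, rfl⟩ (by linarith) (by linarith)
    ⟨hmin₁ q₂ hq₂, hmax₁ q₂ hq₂⟩ ⟨hmin₁ p₂ hp₂, hmax₁ p₂ hp₂⟩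
    ⟨hmin₂ q₁ hq₁, hmax₂ q₁ hq₁⟩ ⟨hmin₂ p₁ hp₁, hmax₂ p₁ hp₁⟩
  set g₁ : ℝ := G (Prod.mk τ ⁻¹' S₁) ⟪q₁, n₁⟫ ⟪p₁, n₁⟫ with hg₁
  set g₂ : ℝ := G (Prod.mk τ ⁻¹' S₂) ⟪q₂, n₂⟫ ⟪p₂, n₂⟫ with hg₂
  have hg₁0 : 0 ≤ g₁ := G_nonneg _ _ _
  have hg₂0 : 0 ≤ g₂ := G_nonneg _ _ _
  -- real-number form of the claim
  set κ : ℝ := 2 * m / H ^ 2 with hκ
  have hκpos : 0 < κ := by positivity
  have hκ₁ : v₁ * κ ≤ W₁ := by
    rw [hκ, ← mul_div_assoc, div_le_iff₀ (by positivity)]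
    linarith
  have hκ₂ : v₂ * κ ≤ W₂ := by
    rw [hκ, ← mul_div_assoc, div_le_iff₀ (by positivity)]
    linarith
  have hreal : κ ≤ g₁ / v₁ + g₂ / v₂ := by
    have a1 : g₁ / W₁ ≤ g₁ / (v₁ * κ) := div_le_div_of_nonneg_left hg₁0 (by positivity) hκ₁
    have a2 : g₂ / W₂ ≤ g₂ / (v₂ * κ) := div_le_div_of_nonneg_left hg₂0 (by positivity) hκ₂
    have a3 : 1 ≤ g₁ / W₁ + g₂ / W₂ := by
      rw [div_add_div _ _ hW₁pos.ne' hW₂pos.ne', le_div_iff₀ (mul_pos hW₁pos hW₂pos)]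
      linarith
    have a4 : g₁ / (v₁ * κ) + g₂ / (v₂ * κ) = (g₁ / v₁ + g₂ / v₂) / κ := by
      field_simp
    have a5 : 1 ≤ (g₁ / v₁ + g₂ / v₂) / κ := by rw [← a4]; linarith
    exact (one_le_div hκpos).1 a5
  -- back to extended nonnegative reals
  have hle₁ : ENNReal.ofReal (g₁ / v₁)
      ≤ volume (Prod.mk τ ⁻¹' S₁) / volume (shadow K e n₁) := by
    rw [ENNReal.ofReal_div_of_pos hv₁pos, hv₁, ENNReal.ofReal_toReal hfin₁]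
    exact ENNReal.div_le_div_right (G_le_vol _ _ _) _
  have hle₂ : ENNReal.ofReal (g₂ / v₂)
      ≤ volume (Prod.mk τ ⁻¹' S₂) / volume (shadow K e n₂) := by
    rw [ENNReal.ofReal_div_of_pos hv₂pos, hv₂, ENNReal.ofReal_toReal hfin₂]
    exact ENNReal.div_le_div_right (G_le_vol _ _ _) _
  calc ENNReal.ofReal κ ≤ ENNReal.ofReal (g₁ / v₁ + g₂ / v₂) := ENNReal.ofReal_le_ofReal hreal
    _ = ENNReal.ofReal (g₁ / v₁) + ENNReal.ofReal (g₂ / v₂) :=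
        ENNReal.ofReal_add (by positivity) (by positivity)
    _ ≤ _ := add_le_add hle₁ hle₂

/-- **Directionwise bound for two families of parallel chords.**  Let `K` be compact and convex,
covered by the two sets `{x | (⟪x, e⟫, ⟪x, n₁⟫) ∈ S₁}` and `{x | (⟪x, e⟫, ⟪x, n₂⟫) ∈ S₂}` with
arbitrary `S₁, S₂ ⊆ ℝ × ℝ`.  If both shadows of `K` have positive area, then the outer areas of
`S₁`, `S₂` divided by the areas of the corresponding shadows add up to at least `1 / 2`. -/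
theorem slab_two_rel (K : Set F) (hKc : IsCompact K) (hK : Convex ℝ K) (e n₁ n₂ : F)
    (S₁ S₂ : Set (ℝ × ℝ))
    (hcov : ∀ x ∈ K, (⟪x, e⟫, ⟪x, n₁⟫) ∈ S₁ ∨ (⟪x, e⟫, ⟪x, n₂⟫) ∈ S₂)
    (hV₁ : 0 < volume (shadow K e n₁)) (hV₂ : 0 < volume (shadow K e n₂)) :
    (1 / 2 : ENNReal)
      ≤ volume S₁ / volume (shadow K e n₁) + volume S₂ / volume (shadow K e n₂) := by
  -- measurable hulls
  set S₁' : Set (ℝ × ℝ) := toMeasurable volume S₁ with hS₁'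
  set S₂' : Set (ℝ × ℝ) := toMeasurable volume S₂ with hS₂'
  have hS₁'meas : MeasurableSet S₁' := measurableSet_toMeasurable _ _
  have hS₂'meas : MeasurableSet S₂' := measurableSet_toMeasurable _ _
  have hcov' : ∀ x ∈ K, (⟪x, e⟫, ⟪x, n₁⟫) ∈ S₁' ∨ (⟪x, e⟫, ⟪x, n₂⟫) ∈ S₂' := by
    intro x hx
    rcases hcov x hx with h | h
    · exact Or.inl (subset_toMeasurable _ _ h)
    · exact Or.inr (subset_toMeasurable _ _ h)
  have hKne : K.Nonempty := by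
    by_contra h
    rw [not_nonempty_iff_eq_empty] at h
    rw [shadow, h, image_empty, measure_empty] at hV₁
    exact lt_irrefl _ hV₁
  -- extreme heights
  have hcont : ContinuousOn (fun x : F => ⟪x, e⟫) K :=
    (continuous_id.inner continuous_const).continuousOn
  obtain ⟨x₀, hx₀, hmin⟩ := hKc.exists_isMinOn hKne hcont
  obtain ⟨x₁, hx₁, hmax⟩ := hKc.exists_isMaxOn hKne hcont
  set τ₀ : ℝ := ⟪x₀, e⟫ with hτ₀
  set τ₁ : ℝ := ⟪x₁, e⟫ with hτ₁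
  have hlo : ∀ x ∈ K, τ₀ ≤ ⟪x, e⟫ := fun x hx => hmin hx
  have hhi : ∀ x ∈ K, ⟪x, e⟫ ≤ τ₁ := fun x hx => hmax hx
  have hτ : τ₀ < τ₁ := by
    by_contra hcon
    have hle : τ₁ ≤ τ₀ := not_lt.1 hcon
    have hsub : shadow K e n₁ ⊆ ({τ₀} : Set ℝ) ×ˢ (univ : Set ℝ) := by
      rintro ⟨a, b⟩ ⟨x, hx, hxe⟩
      have h1 : ⟪x, e⟫ = a := (Prod.mk.inj hxe).1
      refine ⟨?_, mem_univ _⟩
      rw [mem_singleton_iff, ← h1]
      exact le_antisymm ((hhi x hx).trans hle) (hlo x hx)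
    have hzero : volume (({τ₀} : Set ℝ) ×ˢ (univ : Set ℝ)) = 0 := by
      rw [Measure.volume_eq_prod, Measure.prod_prod, Real.volume_singleton, zero_mul]
    have h2 := hV₁.trans_le ((measure_mono hsub).trans hzero.le)
    exact lt_irrefl _ h2
  set V₁ : ENNReal := volume (shadow K e n₁) with hV₁def
  set V₂ : ENNReal := volume (shadow K e n₂) with hV₂def
  -- pointwise bound
  have hpt : ∀ τ ∈ Ioc τ₀ τ₁, ENNReal.ofReal (2 * min (τ - τ₀) (τ₁ - τ) / (τ₁ - τ₀) ^ 2)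
      ≤ volume (Prod.mk τ ⁻¹' S₁') * V₁⁻¹ + volume (Prod.mk τ ⁻¹' S₂') * V₂⁻¹ := by
    intro τ hτm
    rcases hτm.2.eq_or_lt with h | h
    · have h0 : 2 * min (τ - τ₀) (τ₁ - τ) / (τ₁ - τ₀) ^ 2 ≤ 0 := by
        apply div_nonpos_of_nonpos_of_nonneg _ (by positivity)
        have : min (τ - τ₀) (τ₁ - τ) ≤ 0 := min_le_of_right_le (by linarith)
        linarith
      rw [ENNReal.ofReal_of_nonpos h0]
      exact zero_le
    · have := slice_rel K hKc hK e n₁ n₂ S₁' S₂' hcov' τ₀ τ₁ x₀ x₁ hx₀ hx₁ rfl rfl hlo hhi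
        hV₁ hV₂ τ hτm.1 h
      rwa [div_eq_mul_inv, div_eq_mul_inv] at this
  have hmeas₁ : Measurable (fun τ => volume (Prod.mk τ ⁻¹' S₁')) :=
    measurable_measure_prodMk_left hS₁'meas
  have hmeas₂ : Measurable (fun τ => volume (Prod.mk τ ⁻¹' S₂')) :=
    measurable_measure_prodMk_left hS₂'meas
  have hvol₁ : volume S₁' = ∫⁻ τ, volume (Prod.mk τ ⁻¹' S₁') := by
    rw [Measure.volume_eq_prod, Measure.prod_apply hS₁'meas]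
  have hvol₂ : volume S₂' = ∫⁻ τ, volume (Prod.mk τ ⁻¹' S₂') := by
    rw [Measure.volume_eq_prod, Measure.prod_apply hS₂'meas]
  have hhalf : (1 / 2 : ENNReal) = ENNReal.ofReal (1 / 2) := by
    rw [ENNReal.ofReal_div_of_pos (by norm_num : (0 : ℝ) < 2), ENNReal.ofReal_one,
      ENNReal.ofReal_ofNat]
  calc (1 / 2 : ENNReal) = ENNReal.ofReal (1 / 2) := hhalf
    _ = ∫⁻ τ in Ioc τ₀ τ₁, ENNReal.ofReal (2 * min (τ - τ₀) (τ₁ - τ) / (τ₁ - τ₀) ^ 2) :=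
        (tent_lintegral τ₀ τ₁ hτ).symm
    _ ≤ ∫⁻ τ in Ioc τ₀ τ₁,
          (volume (Prod.mk τ ⁻¹' S₁') * V₁⁻¹ + volume (Prod.mk τ ⁻¹' S₂') * V₂⁻¹) :=
        setLIntegral_mono' measurableSet_Ioc hpt
    _ ≤ ∫⁻ τ, (volume (Prod.mk τ ⁻¹' S₁') * V₁⁻¹ + volume (Prod.mk τ ⁻¹' S₂') * V₂⁻¹) :=
        setLIntegral_le_lintegral _ _
    _ = (∫⁻ τ, volume (Prod.mk τ ⁻¹' S₁')) * V₁⁻¹
          + (∫⁻ τ, volume (Prod.mk τ ⁻¹' S₂')) * V₂⁻¹ := by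
        rw [lintegral_add_left (hmeas₁.mul_const _), lintegral_mul_const _ hmeas₁,
          lintegral_mul_const _ hmeas₂]
    _ = volume S₁ / V₁ + volume S₂ / V₂ := by
        rw [← hvol₁, ← hvol₂, hS₁', hS₂', measure_toMeasurable, measure_toMeasurable,
          div_eq_mul_inv, div_eq_mul_inv]

end Vale.Agent.Lib.P243.H18
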