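import Mathlib
import Vale.Agent.Lib.P243.Coord
import Vale.Agent.Lib.P243.helper18.SlabTwo

/-!
The directionwise (relative) half-area bound for every covering of a convex body of Euclidean
3-space by two cylinders.
-/

namespace Vale.Agent.Lib.P243.H18

open scoped RealInnerProductSpace
open MeasureTheory Set

/-- A cylinder given in the orthonormal coordinates `(a, b)` of the plane orthogonal to `u`
can be rewritten in slab coordinates `(e, n)` for any unit vector `e` orthogonal to `u`; the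
area of the projection of `K` is the same in both coordinate systems. -/
lemma coord_transfer_area (K : Set E3) (a b u e : E3) (hab : OrthoPair a b) (hu : u ≠ 0)
    (hua : ⟪u, a⟫ = 0) (hub : ⟪u, b⟫ = 0) (he : ‖e‖ = 1) (hue : ⟪u, e⟫ = 0)
    (S : Set (ℝ × ℝ)) :
    ∃ n : E3, ‖n‖ = 1 ∧ ⟪n, e⟫ = 0 ∧ ∃ S' : Set (ℝ × ℝ), volume S' = volume S ∧
      (∀ x : E3, planeCoords a b x ∈ S → (⟪x, e⟫, ⟪x, n⟫) ∈ S') ∧
      volume (shadow K e n) = volume (planeCoords a b '' K) := by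
  set u' : E3 := (‖u‖)⁻¹ • u with hu'
  have hupos : 0 < ‖u‖ := norm_pos_iff.2 hu
  have hu'1 : ‖u'‖ = 1 := by
    rw [hu', norm_smul, norm_inv, norm_norm, inv_mul_cancel₀ hupos.ne']
  have hu'0 : u' ≠ 0 := by
    intro h; rw [h, norm_zero] at hu'1; exact zero_ne_one hu'1
  have hu'a : ⟪u', a⟫ = 0 := by rw [hu', inner_smul_left, hua, mul_zero]
  have hu'b : ⟪u', b⟫ = 0 := by rw [hu', inner_smul_left, hub, mul_zero]
  have hu'e : ⟪u', e⟫ = 0 := by rw [hu', inner_smul_left, hue, mul_zero]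
  have haW : a ∈ (ℝ ∙ u')ᗮ := Submodule.mem_orthogonal_singleton_iff_inner_right.2 hu'a
  have hbW : b ∈ (ℝ ∙ u')ᗮ := Submodule.mem_orthogonal_singleton_iff_inner_right.2 hu'b
  have heW : e ∈ (ℝ ∙ u')ᗮ := Submodule.mem_orthogonal_singleton_iff_inner_right.2 hu'e
  obtain ⟨β, hβ0, hβ1⟩ := exists_basis_two (finrank_orth u' hu'0) (⟨a, haW⟩ : ↥(ℝ ∙ u')ᗮ)
    ⟨b, hbW⟩ (by rw [Submodule.coe_norm]; exact hab.1) (by rw [Submodule.coe_norm]; exact hab.2.1)
    (by rw [Submodule.coe_inner, real_inner_comm]; exact hab.2.2)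
  obtain ⟨c, hc0⟩ := exists_basis_one (finrank_orth u' hu'0) (⟨e, heW⟩ : ↥(ℝ ∙ u')ᗮ)
    (by rw [Submodule.coe_norm]; exact he)
  refine ⟨((c 1 : ↥(ℝ ∙ u')ᗮ) : E3), ?_, ?_, planeEquiv c '' (planeEquiv β ⁻¹' S), ?_, ?_, ?_⟩
  · rw [← Submodule.coe_norm]; exact c.orthonormal.1 1
  · have h10 : ⟪c 1, c 0⟫ = 0 := c.orthonormal.2 (by decide)
    rw [hc0, Submodule.coe_inner] at h10
    exact h10
  · rw [MeasurableEquiv.image_eq_preimage_symm,
      (MeasurePreserving.symm (planeEquiv c)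
        (measurePreserving_planeEquiv c)).measure_preimage_equiv]
    exact (measurePreserving_planeEquiv β).measure_preimage_equiv S
  · intro x hx
    refine ⟨(ℝ ∙ u')ᗮ.orthogonalProjectionOnto x, ?_, ?_⟩
    · change planeEquiv β ((ℝ ∙ u')ᗮ.orthogonalProjectionOnto x) ∈ S
      rw [planeEquiv_proj, hβ0, hβ1]
      exact hx
    · rw [planeEquiv_proj, hc0]
  · have h1 : shadow K e ((c 1 : ↥(ℝ ∙ u')ᗮ) : E3)
        = planeEquiv c '' ((ℝ ∙ u')ᗮ.orthogonalProjectionOnto '' K) := by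
      rw [Set.image_image]
      unfold shadow
      refine Set.image_congr fun x _ => ?_
      rw [planeEquiv_proj, hc0]
    have h2 : planeCoords a b '' K
        = planeEquiv β '' ((ℝ ∙ u')ᗮ.orthogonalProjectionOnto '' K) := by
      rw [Set.image_image]
      refine Set.image_congr fun x _ => ?_
      rw [planeEquiv_proj, hβ0, hβ1]
      rfl
    rw [h1, h2, MeasurableEquiv.image_eq_preimage_symm, MeasurableEquiv.image_eq_preimage_symm,
      (MeasurePreserving.symm (planeEquiv c)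
        (measurePreserving_planeEquiv c)).measure_preimage_equiv,
      (MeasurePreserving.symm (planeEquiv β)
        (measurePreserving_planeEquiv β)).measure_preimage_equiv]

/-- The projection of a set with nonempty interior onto a plane has positive area. -/
lemma planeCoords_area_pos (K : Set E3) (hint : (interior K).Nonempty) (a b : E3)
    (hab : OrthoPair a b) : 0 < volume (planeCoords a b '' K) := by
  obtain ⟨c, hc⟩ := hint
  obtain ⟨ε, hε, hball⟩ := Metric.isOpen_iff.1 isOpen_interior c hc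
  have haa : ⟪a, a⟫ = 1 := by rw [real_inner_self_eq_norm_sq, hab.1, one_pow]
  have hbb : ⟪b, b⟫ = 1 := by rw [real_inner_self_eq_norm_sq, hab.2.1, one_pow]
  have hab0 : ⟪a, b⟫ = 0 := hab.2.2
  have hba0 : ⟪b, a⟫ = 0 := by rw [real_inner_comm]; exact hab0
  have hsub : Ioo (⟪c, a⟫ - ε / 2) (⟪c, a⟫ + ε / 2) ×ˢ Ioo (⟪c, b⟫ - ε / 2) (⟪c, b⟫ + ε / 2)
      ⊆ planeCoords a b '' K := by
    rintro ⟨s, t⟩ ⟨hs, ht⟩
    have hs' : |s - ⟪c, a⟫| < ε / 2 := abs_lt.2 ⟨by linarith [hs.1], by linarith [hs.2]⟩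
    have ht' : |t - ⟪c, b⟫| < ε / 2 := abs_lt.2 ⟨by linarith [ht.1], by linarith [ht.2]⟩
    refine ⟨c + (s - ⟪c, a⟫) • a + (t - ⟪c, b⟫) • b, interior_subset (hball ?_), ?_⟩
    · rw [Metric.mem_ball, dist_eq_norm]
      have e1 : c + (s - ⟪c, a⟫) • a + (t - ⟪c, b⟫) • b - c
          = (s - ⟪c, a⟫) • a + (t - ⟪c, b⟫) • b := by abel
      rw [e1]
      calc ‖(s - ⟪c, a⟫) • a + (t - ⟪c, b⟫) • b‖
          ≤ ‖(s - ⟪c, a⟫) • a‖ + ‖(t - ⟪c, b⟫) • b‖ := norm_add_le _ _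
        _ = |s - ⟪c, a⟫| + |t - ⟪c, b⟫| := by
            rw [norm_smul, norm_smul, hab.1, hab.2.1, mul_one, mul_one, Real.norm_eq_abs,
              Real.norm_eq_abs]
        _ < ε := by linarith
    · unfold planeCoords
      rw [inner_add_left, inner_add_left, inner_add_left, inner_add_left, inner_smul_left,
        inner_smul_left, inner_smul_left, inner_smul_left, haa, hbb, hab0, hba0]
      simp
  have hpos : 0 < volume (Ioo (⟪c, a⟫ - ε / 2) (⟪c, a⟫ + ε / 2)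
      ×ˢ Ioo (⟪c, b⟫ - ε / 2) (⟪c, b⟫ + ε / 2)) := by
    rw [Measure.volume_eq_prod, Measure.prod_prod, Real.volume_Ioo, Real.volume_Ioo]
    have h1 : 0 < ENNReal.ofReal (⟪c, a⟫ + ε / 2 - (⟪c, a⟫ - ε / 2)) :=
      ENNReal.ofReal_pos.2 (by linarith)
    have h2 : 0 < ENNReal.ofReal (⟪c, b⟫ + ε / 2 - (⟪c, b⟫ - ε / 2)) :=
      ENNReal.ofReal_pos.2 (by linarith)
    exact ENNReal.mul_pos h1.ne' h2.ne'
  exact hpos.trans_le (measure_mono hsub)

/-- **Directionwise half-area bound for two cylinders.**  If a convex body `K` of Euclidean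
3-space is covered by two cylinders, then the base areas divided by the areas of the
projections of `K` along the respective axes add up to at least `1 / 2`. -/
theorem directionwise_two (K : Set E3) (hKconv : Convex ℝ K) (hKc : IsCompact K)
    (hKint : (interior K).Nonempty)
    (a₁ b₁ a₂ b₂ : E3) (h₁ : OrthoPair a₁ b₁) (h₂ : OrthoPair a₂ b₂) (S₁ S₂ : Set (ℝ × ℝ))
    (hcov : K ⊆ planeCoords a₁ b₁ ⁻¹' S₁ ∪ planeCoords a₂ b₂ ⁻¹' S₂) :
    (1 / 2 : ENNReal) ≤ volume S₁ / volume (planeCoords a₁ b₁ '' K)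
      + volume S₂ / volume (planeCoords a₂ b₂ '' K) := by
  obtain ⟨c₁, hc₁0, hc₁1⟩ := exists_basis_three finrank_E3 a₁ b₁ h₁.1 h₁.2.1
    (by rw [real_inner_comm]; exact h₁.2.2)
  obtain ⟨c₂, hc₂0, hc₂1⟩ := exists_basis_three finrank_E3 a₂ b₂ h₂.1 h₂.2.1
    (by rw [real_inner_comm]; exact h₂.2.2)
  have hu₁ := axis_of_basis c₁ a₁ b₁ hc₁0 hc₁1
  have hu₂ := axis_of_basis c₂ a₂ b₂ hc₂0 hc₂1
  obtain ⟨e, he, he₁, he₂⟩ := exists_common_normal (c₁ 2) (c₂ 2)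
  set e' : E3 := (‖e‖)⁻¹ • e with he'
  have hepos : 0 < ‖e‖ := norm_pos_iff.2 he
  have he'1 : ‖e'‖ = 1 := by
    rw [he', norm_smul, norm_inv, norm_norm, inv_mul_cancel₀ hepos.ne']
  have hue₁ : ⟪c₁ 2, e'⟫ = 0 := by rw [he', inner_smul_right, he₁, mul_zero]
  have hue₂ : ⟪c₂ 2, e'⟫ = 0 := by rw [he', inner_smul_right, he₂, mul_zero]
  obtain ⟨n₁, -, -, S₁', hS₁'vol, hS₁', hA₁⟩ :=
    coord_transfer_area K a₁ b₁ (c₁ 2) e' h₁ hu₁.1 hu₁.2.1 hu₁.2.2 he'1 hue₁ S₁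
  obtain ⟨n₂, -, -, S₂', hS₂'vol, hS₂', hA₂⟩ :=
    coord_transfer_area K a₂ b₂ (c₂ 2) e' h₂ hu₂.1 hu₂.2.1 hu₂.2.2 he'1 hue₂ S₂
  have hcov' : ∀ x ∈ K, (⟪x, e'⟫, ⟪x, n₁⟫) ∈ S₁' ∨ (⟪x, e'⟫, ⟪x, n₂⟫) ∈ S₂' := by
    intro x hx
    rcases hcov hx with h | h
    · exact Or.inl (hS₁' x h)
    · exact Or.inr (hS₂' x h)
  have hpos₁ : 0 < volume (shadow K e' n₁) := by
    rw [hA₁]; exact planeCoords_area_pos K hKint a₁ b₁ h₁
  have hpos₂ : 0 < volume (shadow K e' n₂) := by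
    rw [hA₂]; exact planeCoords_area_pos K hKint a₂ b₂ h₂
  have := slab_two_rel K hKc hKconv e' n₁ n₂ S₁' S₂' hcov' hpos₁ hpos₂
  rwa [hS₁'vol, hS₂'vol, hA₁, hA₂] at this

end Vale.Agent.Lib.P243.H18
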