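import Mathlib

open MeasureTheory Set
open scoped ENNReal NNReal

namespace Vale.Agent.Lib.P243

/-- Every subset of the line is covered by countably many open intervals whose total length
exceeds its Lebesgue outer measure by at most `ε`. -/
theorem exists_Ioo_cover (s : Set ℝ) (ε : ℝ≥0∞) (hε : ε ≠ 0) :
    ∃ a b : ℕ → ℝ, s ⊆ ⋃ n, Set.Ioo (a n) (b n) ∧
      ∑' n, ENNReal.ofReal (b n - a n) ≤ volume s + ε := by
  by_cases htop : volume s = ∞
  · refine ⟨fun n => -((n : ℝ) + 1), fun n => (n : ℝ) + 1, ?_, by simp [htop]⟩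
    intro x _
    obtain ⟨n, hn⟩ := exists_nat_gt |x|
    refine Set.mem_iUnion.mpr ⟨n, ?_, ?_⟩
    · have := neg_abs_le x
      linarith
    · have := le_abs_self x
      linarith
  · have hvol : volume s = ⨅ (t : ℕ → Set ℝ) (_ : s ⊆ ⋃ n, t n),
        ∑' n, StieltjesFunction.id.length (t n) := by
      rw [Real.volume_eq_stieltjes_id, StieltjesFunction.measure]
      rfl
    have hε3 : ε / 3 ≠ 0 := by
      simp [hε]
    have hlt : (⨅ (t : ℕ → Set ℝ) (_ : s ⊆ ⋃ n, t n),
        ∑' n, StieltjesFunction.id.length (t n)) < volume s + ε / 3 :=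
      lt_of_eq_of_lt hvol.symm (ENNReal.lt_add_right htop hε3)
    simp only [iInf_lt_iff] at hlt
    obtain ⟨t, hcov, hsum⟩ := hlt
    obtain ⟨δ, hδpos, hδsum⟩ := ENNReal.exists_pos_sum_of_countable hε3 ℕ
    have hfin : ∀ n, StieltjesFunction.id.length (t n) ≠ ∞ := fun n =>
      ne_top_of_le_ne_top (ne_top_of_lt hsum) (ENNReal.le_tsum n)
    have hex : ∀ n, ∃ p : ℝ × ℝ, t n ⊆ Set.Ioc p.1 p.2 ∧
        ENNReal.ofReal (p.2 - p.1) < StieltjesFunction.id.length (t n) + δ n := by
      intro n
      have h1 : StieltjesFunction.id.length (t n) < StieltjesFunction.id.length (t n) + δ n :=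
        ENNReal.lt_add_right (hfin n) (by simpa using (hδpos n).ne')
      have h2 : (⨅ (a : ℝ) (b : ℝ) (_ : t n \ botSet ⊆ Set.Ioc a b),
          ENNReal.ofReal (StieltjesFunction.id b - StieltjesFunction.id a))
          < StieltjesFunction.id.length (t n) + δ n :=
        lt_of_eq_of_lt (StieltjesFunction.length_eq _ _).symm h1
      simp only [iInf_lt_iff] at h2
      obtain ⟨a, b, hsub, hab⟩ := h2
      refine ⟨(a, b), ?_, by simpa using hab⟩
      intro x hx
      exact hsub ⟨hx, notMem_botSet_of_lt (show x - 1 < x by linarith)⟩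
    choose p hp1 hp2 using hex
    refine ⟨fun n => (p n).1, fun n => (p n).2 + δ n, ?_, ?_⟩
    · intro x hx
      obtain ⟨n, hn⟩ := Set.mem_iUnion.mp (hcov hx)
      have h := hp1 n hn
      refine Set.mem_iUnion.mpr ⟨n, h.1, ?_⟩
      have : (0 : ℝ) < δ n := by exact_mod_cast hδpos n
      linarith [h.2]
    · calc ∑' n, ENNReal.ofReal ((p n).2 + δ n - (p n).1)
          ≤ ∑' n, (ENNReal.ofReal ((p n).2 - (p n).1) + δ n) := by
            refine ENNReal.tsum_le_tsum (fun n => ?_)
            have e : (p n).2 + (δ n : ℝ) - (p n).1 = ((p n).2 - (p n).1) + δ n := by ring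
            rw [e]
            refine ENNReal.ofReal_add_le.trans ?_
            simp
        _ ≤ ∑' n, (StieltjesFunction.id.length (t n) + δ n + δ n) := by
            refine ENNReal.tsum_le_tsum (fun n => ?_)
            gcongr
            exact (hp2 n).le
        _ = ∑' n, StieltjesFunction.id.length (t n) + ∑' n, (δ n : ℝ≥0∞)
            + ∑' n, (δ n : ℝ≥0∞) := by
            rw [ENNReal.tsum_add, ENNReal.tsum_add]
        _ ≤ (volume s + ε / 3) + ε / 3 + ε / 3 := by
            gcongr
        _ = volume s + ε := by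
            rw [add_assoc, add_assoc, ← add_assoc (ε / 3), ENNReal.add_thirds]

end Vale.Agent.Lib.P243
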