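import Vale.Agent.Lib.P243.helper18.Plank
import Vale.Agent.Lib.P243.helper18.IntervalCover

open MeasureTheory Set
open scoped RealInnerProductSpace ENNReal NNReal

namespace Vale.Agent.Lib.P243

variable {V : Type*} [NormedAddCommGroup V] [InnerProductSpace ℝ V]

/-- **Bang's plank theorem for generalized planks**: if a nonempty compact convex set `K`, all of
whose widths are at least `W`, is covered by finitely many generalized planks
`{x | ⟪x, v i⟫ ∈ L i}` (unit normals `v i`, arbitrary profile sets `L i ⊆ ℝ`), then `W` is at most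
the sum of the Lebesgue outer measures of the profiles `L i`. -/
theorem bang_plank_generalized {ι : Type*} [Fintype ι] (K : Set V) (hK : IsCompact K)
    (hconv : Convex ℝ K) (hne : K.Nonempty) (W : ℝ)
    (hW : ∀ θ : V, ‖θ‖ = 1 → ∃ x ∈ K, ∃ y ∈ K, W ≤ ⟪x - y, θ⟫)
    (v : ι → V) (hv : ∀ i, ‖v i‖ = 1) (L : ι → Set ℝ)
    (hcov : K ⊆ ⋃ i, {x | ⟪x, v i⟫ ∈ L i}) :
    ENNReal.ofReal W ≤ ∑ i, volume (L i) := by
  classical
  refine ENNReal.le_of_forall_pos_le_add (fun ε hε _ => ?_)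
  have hε' : (ε : ℝ≥0∞) ≠ 0 := by simpa using hε.ne'
  obtain ⟨δ, hδpos, hδsum⟩ := ENNReal.exists_pos_sum_of_countable hε' ι
  have hex : ∀ i, ∃ a b : ℕ → ℝ, L i ⊆ ⋃ n, Set.Ioo (a n) (b n) ∧
      ∑' n, ENNReal.ofReal (b n - a n) ≤ volume (L i) + δ i := fun i =>
    exists_Ioo_cover (L i) (δ i) (by simpa using (hδpos i).ne')
  choose a b hab hsum using hex
  let G : ι × ℕ → Set V := fun p => {x | ⟪x, v p.1⟫ ∈ Set.Ioo (a p.1 p.2) (b p.1 p.2)}
  have hGo : ∀ p, IsOpen (G p) := by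
    intro p
    have hcont : Continuous (fun x : V => ⟪x, v p.1⟫) := continuous_id.inner continuous_const
    exact isOpen_Ioo.preimage hcont
  have hKG : K ⊆ ⋃ p, G p := by
    intro x hx
    obtain ⟨i, hi⟩ := Set.mem_iUnion.mp (hcov hx)
    obtain ⟨n, hn⟩ := Set.mem_iUnion.mp (hab i hi)
    exact Set.mem_iUnion.mpr ⟨(i, n), hn⟩
  obtain ⟨T, hT⟩ := hK.elim_finite_subcover G hGo hKG
  -- apply the open plank theorem to the finite subfamily
  have hplank := bang_plank_open (ι := T) K hK hconv hne W hW (fun p => v p.1.1)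
    (fun p => hv p.1.1) (fun p => (a p.1.1 p.1.2 + b p.1.1 p.1.2) / 2)
    (fun p => max 0 ((b p.1.1 p.1.2 - a p.1.1 p.1.2) / 2)) (fun p => le_max_left _ _)
    (by
      intro x hx
      obtain ⟨p, hp⟩ := Set.mem_iUnion.mp (hT hx)
      obtain ⟨hpT, hxp⟩ := Set.mem_iUnion.mp hp
      refine Set.mem_iUnion.mpr ⟨⟨p, hpT⟩, ?_⟩
      have h1 : a p.1 p.2 < ⟪x, v p.1⟫ := hxp.1
      have h2 : ⟪x, v p.1⟫ < b p.1 p.2 := hxp.2
      show |⟪x, v p.1⟫ - (a p.1 p.2 + b p.1 p.2) / 2| < max 0 ((b p.1 p.2 - a p.1 p.2) / 2)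
      rw [lt_max_iff]
      right
      rw [abs_lt]
      constructor <;> linarith)
  have hreal : W ≤ ∑ p ∈ T, max 0 (b p.1 p.2 - a p.1 p.2) := by
    have e : ∑ p : T, 2 * max 0 ((b p.1.1 p.1.2 - a p.1.1 p.1.2) / 2)
        = ∑ p ∈ T, max 0 (b p.1 p.2 - a p.1 p.2) := by
      rw [← Finset.sum_coe_sort T (fun p => max 0 (b p.1 p.2 - a p.1 p.2))]
      refine Finset.sum_congr rfl (fun p _ => ?_)
      rcases le_total 0 (b p.1.1 p.1.2 - a p.1.1 p.1.2) with h | h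
      · rw [max_eq_right h, max_eq_right (by linarith)]
        ring
      · rw [max_eq_left h, max_eq_left (by linarith)]
        ring
    rw [← e]
    exact hplank
  calc ENNReal.ofReal W ≤ ENNReal.ofReal (∑ p ∈ T, max 0 (b p.1 p.2 - a p.1 p.2)) :=
        ENNReal.ofReal_le_ofReal hreal
    _ = ∑ p ∈ T, ENNReal.ofReal (max 0 (b p.1 p.2 - a p.1 p.2)) :=
        ENNReal.ofReal_sum_of_nonneg (fun p _ => le_max_left _ _)
    _ = ∑ p ∈ T, ENNReal.ofReal (b p.1 p.2 - a p.1 p.2) := by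
        refine Finset.sum_congr rfl (fun p _ => ?_)
        rcases le_total 0 (b p.1 p.2 - a p.1 p.2) with h | h
        · rw [max_eq_right h]
        · rw [max_eq_left h, ENNReal.ofReal_zero, ENNReal.ofReal_of_nonpos h]
    _ ≤ ∑' p : ι × ℕ, ENNReal.ofReal (b p.1 p.2 - a p.1 p.2) := ENNReal.sum_le_tsum T
    _ = ∑' i, ∑' n, ENNReal.ofReal (b i n - a i n) := ENNReal.tsum_prod'
    _ = ∑ i, ∑' n, ENNReal.ofReal (b i n - a i n) := tsum_fintype _
    _ ≤ ∑ i, (volume (L i) + δ i) := Finset.sum_le_sum (fun i _ => hsum i)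
    _ = ∑ i, volume (L i) + ∑ i, (δ i : ℝ≥0∞) := Finset.sum_add_distrib
    _ ≤ ∑ i, volume (L i) + ε := by
        gcongr
        have h : ∑' i, (δ i : ℝ≥0∞) = ∑ i, (δ i : ℝ≥0∞) := tsum_fintype _
        rw [← h]
        exact hδsum.le

end Vale.Agent.Lib.P243
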