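import Vale.Agent.Lib.P243.helper18.Translate

open scoped RealInnerProductSpace Pointwise

namespace Vale.Agent.Lib.P243

variable {V : Type*} [NormedAddCommGroup V] [InnerProductSpace ℝ V]

/-- **Bang's plank theorem** (open planks): if a nonempty compact convex set `K`, all of whose
widths are at least `W`, is covered by finitely many open planks
`{x | |⟪x, v i⟫ - m i| < r i}` (with unit normals `v i`), then `W ≤ ∑ i, 2 * r i`. -/
theorem bang_plank_open {ι : Type*} [Fintype ι] (K : Set V) (hK : IsCompact K)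
    (hconv : Convex ℝ K) (hne : K.Nonempty) (W : ℝ)
    (hW : ∀ θ : V, ‖θ‖ = 1 → ∃ x ∈ K, ∃ y ∈ K, W ≤ ⟪x - y, θ⟫)
    (v : ι → V) (hv : ∀ i, ‖v i‖ = 1) (m r : ι → ℝ) (hr : ∀ i, 0 ≤ r i)
    (hcov : K ⊆ ⋃ i, {x | |⟪x, v i⟫ - m i| < r i}) :
    W ≤ ∑ i, 2 * r i := by
  classical
  by_contra hlt
  rw [not_le] at hlt
  have hnorm : ∀ i, ‖(2 * r i) • v i‖ = 2 * r i := by
    intro i
    rw [norm_smul, hv i, mul_one, Real.norm_eq_abs, abs_of_nonneg (by linarith [hr i])]
  have hsum : ∑ i ∈ (Finset.univ : Finset ι), ‖(2 * r i) • v i‖ < W := by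
    rw [Finset.sum_congr rfl (fun i _ => hnorm i)]
    exact hlt
  obtain ⟨c, hc⟩ := exists_translate Finset.univ (fun i => (2 * r i) • v i) K W hK hconv hne
    hW hsum
  set c' : V := c + ∑ i, r i • v i with hc'
  obtain ⟨ε, hε⟩ := bang_signs v r (fun k => m k - ⟪c', v k⟫) hv hr
  set x : V := ∑ i, (((ε i : ℤ) : ℝ) * r i) • v i with hx
  have hz : c' + x ∈ K := by
    have h := hc (Finset.univ.filter (fun i => ε i = 1)) (Finset.subset_univ _)
    have e : c' + x = c + ∑ j ∈ Finset.univ.filter (fun i => ε i = 1), (2 * r j) • v j := by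
      rw [hc', hx, add_assoc, ← Finset.sum_add_distrib, Finset.sum_filter]
      congr 1
      refine Finset.sum_congr rfl (fun i _ => ?_)
      rcases Int.units_eq_one_or (ε i) with h1 | h1
      · rw [if_pos h1, h1, ← add_smul]
        congr 1
        simp
        ring
      · have hne1 : ε i ≠ 1 := by
          rw [h1]
          decide
        rw [if_neg hne1, h1, ← add_smul]
        simp
    rw [e]
    exact h
  obtain ⟨k, hk⟩ := Set.mem_iUnion.mp (hcov hz)
  have hk' : |⟪c' + x, v k⟫ - m k| < r k := hk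
  have h2 := hε k
  have e2 : ⟪x, v k⟫ - (m k - ⟪c', v k⟫) = ⟪c' + x, v k⟫ - m k := by
    have h3 : ⟪c' + x, v k⟫ = ⟪c', v k⟫ + ⟪x, v k⟫ := inner_add_left _ _ _
    rw [h3]
    ring
  rw [e2] at h2
  exact absurd hk' (not_lt.mpr h2)

end Vale.Agent.Lib.P243
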