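import Mathlib

open scoped RealInnerProductSpace

namespace Vale.Agent.Lib.P243

variable {V : Type*} [NormedAddCommGroup V] [InnerProductSpace ℝ V]

/-- Bang's sign lemma: for unit vectors `v i`, half-widths `r i ≥ 0` and centres `m i`, some
choice of signs `ε i = ±1` gives a point `∑ ε i r i v i` that lies in none of the open planks
`{x | |⟪x, v k⟫ - m k| < r k}`. -/
theorem bang_signs {ι : Type*} [Fintype ι] (v : ι → V) (r m : ι → ℝ)
    (hv : ∀ i, ‖v i‖ = 1) (hr : ∀ i, 0 ≤ r i) :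
    ∃ ε : ι → ℤˣ, ∀ k, r k ≤ |⟪∑ i, (((ε i : ℤ) : ℝ) * r i) • v i, v k⟫ - m k| := by
  classical
  let Q : (ι → ℤˣ) → ℝ := fun ε =>
    ‖∑ i, (((ε i : ℤ) : ℝ) * r i) • v i‖ ^ 2 - 2 * ∑ i, ((ε i : ℤ) : ℝ) * r i * m i
  obtain ⟨ε, hε⟩ := Finite.exists_max Q
  refine ⟨ε, fun k => ?_⟩
  set x : V := ∑ i, (((ε i : ℤ) : ℝ) * r i) • v i with hx
  set σ : ℝ := ((ε k : ℤ) : ℝ) with hσ
  have hσ2 : σ * σ = 1 := by
    rcases Int.units_eq_one_or (ε k) with h | h <;> simp [hσ, h]
  let ε' : ι → ℤˣ := Function.update ε k (-ε k)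
  have hmax := hε ε'
  -- the flipped point
  have hsumV : ∑ i, (((ε' i : ℤ) : ℝ) * r i) • v i = x - (2 * σ * r k) • v k := by
    have h1 : ∀ i, (((ε' i : ℤ) : ℝ) * r i) • v i
        = (((ε i : ℤ) : ℝ) * r i) • v i - (if i = k then (2 * σ * r k) • v k else 0) := by
      intro i
      by_cases hik : i = k
      · subst hik
        simp only [ε', Function.update_self, if_true, Units.val_neg, Int.cast_neg]
        rw [← sub_smul]
        congr 1
        rw [hσ]
        ring
      · simp only [ε', Function.update_of_ne hik, if_neg hik, sub_zero]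
    rw [Finset.sum_congr rfl (fun i _ => h1 i), Finset.sum_sub_distrib, Finset.sum_ite_eq']
    simp [hx]
  have hsumR : ∑ i, ((ε' i : ℤ) : ℝ) * r i * m i
      = ∑ i, ((ε i : ℤ) : ℝ) * r i * m i - 2 * σ * r k * m k := by
    have h1 : ∀ i, ((ε' i : ℤ) : ℝ) * r i * m i
        = ((ε i : ℤ) : ℝ) * r i * m i - (if i = k then 2 * σ * r k * m k else 0) := by
      intro i
      by_cases hik : i = k
      · subst hik
        simp only [ε', Function.update_self, if_true, Units.val_neg, Int.cast_neg]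
        rw [hσ]
        ring
      · simp only [ε', Function.update_of_ne hik, if_neg hik, sub_zero]
    rw [Finset.sum_congr rfl (fun i _ => h1 i), Finset.sum_sub_distrib, Finset.sum_ite_eq']
    simp
  have hQ' : Q ε' = ‖x - (2 * σ * r k) • v k‖ ^ 2
      - 2 * (∑ i, ((ε i : ℤ) : ℝ) * r i * m i - 2 * σ * r k * m k) := by
    simp only [Q]
    rw [hsumV, hsumR]
  have hQ : Q ε = ‖x‖ ^ 2 - 2 * ∑ i, ((ε i : ℤ) : ℝ) * r i * m i := rfl
  have hnorm : ‖x - (2 * σ * r k) • v k‖ ^ 2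
      = ‖x‖ ^ 2 - 4 * σ * r k * ⟪x, v k⟫ + 4 * r k ^ 2 := by
    rw [norm_sub_sq_real, norm_smul, inner_smul_right, hv k, mul_one, Real.norm_eq_abs,
      sq_abs]
    have : (2 * σ * r k) ^ 2 = 4 * r k ^ 2 * (σ * σ) := by ring
    rw [this, hσ2]
    ring
  rw [hQ', hQ, hnorm] at hmax
  have hkey : r k * r k ≤ r k * (σ * (⟪x, v k⟫ - m k)) := by nlinarith
  have habs : σ * (⟪x, v k⟫ - m k) ≤ |⟪x, v k⟫ - m k| := by
    rcases Int.units_eq_one_or (ε k) with h | h
    · have : σ = 1 := by simp [hσ, h]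
      rw [this, one_mul]
      exact le_abs_self _
    · have : σ = -1 := by simp [hσ, h]
      rw [this, neg_one_mul]
      exact neg_le_abs _
  rcases (hr k).eq_or_lt with h0 | hpos
  · rw [← h0]
    exact abs_nonneg _
  · have := le_of_mul_le_mul_left hkey hpos
    exact this.trans habs

end Vale.Agent.Lib.P243
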