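import Mathlib

/-!
One-dimensional lemmas for the symmetric-body theorem: Hermite-Hadamard and the weighted length
of a chord for the density `1 + 2 * gauge`.
-/

namespace Vale.Agent.Lib.P243.H18

open MeasureTheory Set

/-- Upper Hermite-Hadamard inequality. -/
lemma hermite_hadamard {N : ℝ → ℝ} (hN : ConvexOn ℝ Set.univ N) (hc : Continuous N) {a b : ℝ}
    (hab : a ≤ b) : ∫ t in a..b, N t ≤ (b - a) * (N a + N b) / 2 := by
  have h1 : ∫ t in a..b, N (a + b - t) = ∫ t in a..b, N t := by
    rw [intervalIntegral.integral_comp_sub_left (fun t => N t) (a + b)]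
    simp
  have hpt : ∀ t ∈ Icc a b, N t + N (a + b - t) ≤ N a + N b := by
    intro t ht
    rcases eq_or_lt_of_le hab with h | h
    · subst h
      have : t = a := le_antisymm ht.2 ht.1
      subst this
      simp
    · have hba : 0 < b - a := sub_pos.2 h
      set l := (b - t) / (b - a) with hl
      have hl0 : 0 ≤ l := div_nonneg (sub_nonneg.2 ht.2) hba.le
      have hl1 : l ≤ 1 := (div_le_one hba).2 (by linarith [ht.1])
      have e1 : l • a + (1 - l) • b = t := by
        simp only [smul_eq_mul, hl]
        field_simp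
        ring
      have e2 : (1 - l) • a + l • b = a + b - t := by
        simp only [smul_eq_mul, hl]
        field_simp
        ring
      have c1 := hN.2 (mem_univ a) (mem_univ b) hl0 (sub_nonneg.2 hl1) (by ring)
      have c2 := hN.2 (mem_univ a) (mem_univ b) (sub_nonneg.2 hl1) hl0 (by ring)
      rw [e1] at c1
      rw [e2] at c2
      simp only [smul_eq_mul] at c1 c2
      linarith
  have hi1 : IntervalIntegrable N volume a b := hc.intervalIntegrable _ _
  have hi2 : IntervalIntegrable (fun t => N (a + b - t)) volume a b :=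
    (hc.comp (continuous_const.sub continuous_id)).intervalIntegrable _ _
  have h2 : ∫ t in a..b, (N t + N (a + b - t)) ≤ ∫ t in a..b, (N a + N b) :=
    intervalIntegral.integral_mono_on hab (hi1.add hi2) intervalIntegrable_const hpt
  rw [intervalIntegral.integral_add hi1 hi2, h1, intervalIntegral.integral_const,
    smul_eq_mul] at h2
  linarith

/-- Weighted length of a chord: if `N` is convex, nonnegative, at most one at both ends of
`[α, β]`, then the integral of `1 + 2 N` is at most `(β - α) (2 + N s)` for every `s` in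
the chord. -/
lemma chord_weight {N : ℝ → ℝ} (hN : ConvexOn ℝ Set.univ N) (hc : Continuous N) {α β s : ℝ}
    (hαs : α ≤ s) (hsβ : s ≤ β) (hα : N α ≤ 1) (hβ : N β ≤ 1) :
    ∫ t in α..β, (1 + 2 * N t) ≤ (β - α) * (2 + N s) := by
  have hi : ∀ a b : ℝ, IntervalIntegrable N volume a b := fun a b => hc.intervalIntegrable _ _
  have h1 := hermite_hadamard hN hc hαs
  have h2 := hermite_hadamard hN hc hsβ
  have h3 : ∫ t in α..β, N t = (∫ t in α..s, N t) + ∫ t in s..β, N t :=
    (intervalIntegral.integral_add_adjacent_intervals (hi α s) (hi s β)).symm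
  have h4 : ∫ t in α..β, (1 + 2 * N t) = (β - α) + 2 * ∫ t in α..β, N t := by
    rw [intervalIntegral.integral_add intervalIntegrable_const ((hi α β).const_mul 2),
      intervalIntegral.integral_const, intervalIntegral.integral_const_mul]
    simp
  rw [h4, h3]
  have e1 : (s - α) * (N α + N s) / 2 ≤ (s - α) * (1 + N s) / 2 := by
    have : (s - α) * (N α + N s) ≤ (s - α) * (1 + N s) :=
      mul_le_mul_of_nonneg_left (by linarith) (sub_nonneg.2 hαs)
    linarith
  have e2 : (β - s) * (N s + N β) / 2 ≤ (β - s) * (N s + 1) / 2 := by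
    have : (β - s) * (N s + N β) ≤ (β - s) * (N s + 1) :=
      mul_le_mul_of_nonneg_left (by linarith) (sub_nonneg.2 hsβ)
    linarith
  nlinarith

/-- The same bound for the lower Lebesgue integral over the chord. -/
lemma chord_weight_lintegral {N : ℝ → ℝ} (hN : ConvexOn ℝ Set.univ N) (hc : Continuous N)
    (hN0 : ∀ t, 0 ≤ N t) {α β s : ℝ} (hαs : α ≤ s) (hsβ : s ≤ β) (hα : N α ≤ 1)
    (hβ : N β ≤ 1) :
    ∫⁻ t in Icc α β, ENNReal.ofReal (1 + 2 * N t) ≤ ENNReal.ofReal ((β - α) * (2 + N s)) := by
  have hcont : Continuous fun t => 1 + 2 * N t := continuous_const.add (continuous_const.mul hc)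
  have hint : Integrable (fun t => 1 + 2 * N t) (volume.restrict (Icc α β)) :=
    hcont.integrableOn_Icc
  have hnn : 0 ≤ᵐ[volume.restrict (Icc α β)] fun t => 1 + 2 * N t :=
    Filter.Eventually.of_forall fun t => by have := hN0 t; positivity
  rw [← ofReal_integral_eq_lintegral_ofReal hint hnn]
  refine ENNReal.ofReal_le_ofReal ?_
  rw [integral_Icc_eq_integral_Ioc, ← intervalIntegral.integral_of_le (hαs.trans hsβ)]
  exact chord_weight hN hc hαs hsβ hα hβ

end Vale.Agent.Lib.P243.H18
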