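import Mathlib

/-!
Planar lemmas for the symmetric-body theorem: the area swept by a compact set translated along
a horizontal segment, and the area of a set with short horizontal chords.
-/

namespace Vale.Agent.Lib.P243.H18

open MeasureTheory Set
open scoped Pointwise

/-- One-dimensional Brunn-Minkowski for nonempty compact sets (the proof follows the one in
`Vale/Agent/Lib/P074/helper89/PL.lean`). -/
theorem bm_compact_real (A B : Set ℝ) (hA : IsCompact A) (hB : IsCompact B) (hA0 : A.Nonempty)
    (hB0 : B.Nonempty) : volume A + volume B ≤ volume (A + B) := by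
  set a := sSup A with ha
  set b := sInf B with hb
  have haA : a ∈ A := hA.sSup_mem hA0
  have hbB : b ∈ B := hB.sInf_mem hB0
  have hAm : MeasurableSet A := hA.measurableSet
  have hBm : MeasurableSet B := hB.measurableSet
  have h1 : (fun x => x + b) '' A ⊆ A + B := by
    rintro _ ⟨x, hx, rfl⟩
    exact Set.add_mem_add hx hbB
  have h2 : (fun x => a + x) '' B ⊆ A + B := by
    rintro _ ⟨x, hx, rfl⟩
    exact Set.add_mem_add haA hx
  have h3 : (fun x => x + b) '' A ∩ (fun x => a + x) '' B ⊆ {a + b} := by
    rintro _ ⟨⟨x, hx, rfl⟩, ⟨y, hy, hxy⟩⟩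
    have hxa : x ≤ a := le_csSup hA.bddAbove hx
    have hyb : b ≤ y := csInf_le hB.bddBelow hy
    simp only [Set.mem_singleton_iff]
    have : a + y = x + b := hxy
    linarith
  have hm2 : MeasurableSet ((fun x => a + x) '' B) := by
    have : (fun x => a + x) '' B = (fun x => -a + x) ⁻¹' B := Set.image_add_left
    rw [this]
    exact (measurable_const_add (-a)) hBm
  have hv1 : volume ((fun x => x + b) '' A) = volume A := by
    have : (fun x => x + b) '' A = (fun x => x + -b) ⁻¹' A := Set.image_add_right
    rw [this, measure_preimage_add_right]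
  have hv2 : volume ((fun x => a + x) '' B) = volume B := by
    have : (fun x => a + x) '' B = (fun x => -a + x) ⁻¹' B := Set.image_add_left
    rw [this, measure_preimage_add]
  have hv3 : volume ((fun x => x + b) '' A ∩ (fun x => a + x) '' B) = 0 :=
    measure_mono_null h3 (by simp)
  calc volume A + volume B
      = volume ((fun x => x + b) '' A) + volume ((fun x => a + x) '' B) := by rw [hv1, hv2]
    _ = volume ((fun x => x + b) '' A ∪ (fun x => a + x) '' B)
          + volume ((fun x => x + b) '' A ∩ (fun x => a + x) '' B) :=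
        (measure_union_add_inter _ hm2).symm
    _ = volume ((fun x => x + b) '' A ∪ (fun x => a + x) '' B) := by rw [hv3, add_zero]
    _ ≤ volume (A + B) := measure_mono (Set.union_subset h1 h2)

/-- The set swept by `P` when it is translated along the segment `[-c, c] × {0}`. -/
def sweep (P : Set (ℝ × ℝ)) (c : ℝ) : Set (ℝ × ℝ) :=
  (fun q : (ℝ × ℝ) × ℝ => (q.1.1 + q.2, q.1.2)) '' (P ×ˢ Icc (-c) c)

lemma isCompact_sweep {P : Set (ℝ × ℝ)} (hP : IsCompact P) (c : ℝ) : IsCompact (sweep P c) := by
  refine (hP.prod isCompact_Icc).image ?_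
  fun_prop

/-- Area of the swept set: at least the area of `P` plus `2 c` times the length of the
projection of `P` to the second coordinate. -/
lemma sweep_volume (P : Set (ℝ × ℝ)) (hP : IsCompact P) (c : ℝ) (hc : 0 ≤ c) :
    volume P + ENNReal.ofReal (2 * c) * volume (Prod.snd '' P) ≤ volume (sweep P c) := by
  have hPm : MeasurableSet P := hP.measurableSet
  have hSm : MeasurableSet (sweep P c) := (isCompact_sweep hP c).measurableSet
  have hTm : MeasurableSet (Prod.snd '' P) := (hP.image continuous_snd).measurableSet
  rw [Measure.volume_eq_prod, Measure.prod_apply_symm hPm, Measure.prod_apply_symm hSm,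
    ← lintegral_indicator_const hTm, ← lintegral_add_left (measurable_measure_prodMk_right hPm)]
  refine lintegral_mono fun τ => ?_
  by_cases hτ : τ ∈ Prod.snd '' P
  · rw [indicator_of_mem hτ]
    obtain ⟨p, hp, rfl⟩ := hτ
    have hcomp : IsCompact ((fun x => (x, p.2)) ⁻¹' P) := by
      have hcl : IsClosed ((fun x : ℝ => (x, p.2)) ⁻¹' P) :=
        hP.isClosed.preimage (by fun_prop)
      refine (hP.image continuous_fst).of_isClosed_subset hcl ?_
      intro x hx
      exact ⟨(x, p.2), hx, rfl⟩
    have hne : ((fun x => (x, p.2)) ⁻¹' P).Nonempty := ⟨p.1, hp⟩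
    have hbm := bm_compact_real _ _ hcomp (isCompact_Icc (a := -c) (b := c)) hne
      (nonempty_Icc.2 (by linarith))
    have hI : volume (Icc (-c) c) = ENNReal.ofReal (2 * c) := by
      rw [Real.volume_Icc]
      congr 1
      ring
    rw [hI] at hbm
    refine hbm.trans (measure_mono ?_)
    rintro _ ⟨x, hx, l, hl, rfl⟩
    exact ⟨((x, p.2), l), ⟨hx, hl⟩, rfl⟩
  · rw [indicator_of_notMem hτ, add_zero]
    have : (fun x => (x, τ)) ⁻¹' P = ∅ := by
      ext x
      simp only [mem_preimage, mem_empty_iff_false, iff_false]
      exact fun hx => hτ ⟨(x, τ), hx, rfl⟩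
    rw [this, measure_empty]
    exact zero_le

/-- A planar set all of whose horizontal chords have length at most `2 / r` has area at most
`2 / r` times the length of its projection to the second coordinate. -/
lemma chord_area (P : Set (ℝ × ℝ)) (hP : IsCompact P) (r : ℝ) (hr : 0 ≤ r)
    (hch : ∀ x x' τ, (x, τ) ∈ P → (x', τ) ∈ P → r * |x - x'| ≤ 2) :
    ENNReal.ofReal r * volume P ≤ 2 * volume (Prod.snd '' P) := by
  have hPm : MeasurableSet P := hP.measurableSet
  have hTm : MeasurableSet (Prod.snd '' P) := (hP.image continuous_snd).measurableSet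
  rw [Measure.volume_eq_prod, Measure.prod_apply_symm hPm,
    ← lintegral_const_mul _ (measurable_measure_prodMk_right hPm),
    ← lintegral_indicator_const hTm]
  refine lintegral_mono fun τ => ?_
  by_cases hτ : τ ∈ Prod.snd '' P
  · rw [indicator_of_mem hτ]
    rcases eq_or_lt_of_le hr with h0 | hpos
    · rw [← h0]
      simp
    · have hd : Metric.ediam ((fun x => (x, τ)) ⁻¹' P) ≤ ENNReal.ofReal (2 / r) := by
        refine Metric.ediam_le fun x hx y hy => ?_
        rw [edist_dist, Real.dist_eq]
        refine ENNReal.ofReal_le_ofReal ?_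
        rw [le_div_iff₀ hpos]
        have := hch x y τ hx hy
        linarith
      calc ENNReal.ofReal r * volume ((fun x => (x, τ)) ⁻¹' P)
          ≤ ENNReal.ofReal r * ENNReal.ofReal (2 / r) := by
            gcongr
            exact (Real.volume_le_diam _).trans hd
        _ = 2 := by
            rw [← ENNReal.ofReal_mul hr, mul_div_cancel₀ _ hpos.ne']
            simp
  · rw [indicator_of_notMem hτ]
    have : (fun x => (x, τ)) ⁻¹' P = ∅ := by
      ext x
      simp only [mem_preimage, mem_empty_iff_false, iff_false]
      exact fun hx => hτ ⟨(x, τ), hx, rfl⟩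
    rw [this, measure_empty, mul_zero]

end Vale.Agent.Lib.P243.H18
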