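import Mathlib
import Vale.Agent.Lib.P243.helper18.SymLine
import Vale.Agent.Lib.P243.helper18.SymSweep

/-!
The key estimate for the symmetric-body theorem, in normalized coordinates: a centrally
symmetric convex body `K` in `ℝ × ℝ × ℝ`, the line `{(t, 1, 0)}`, the density
`1 + 2 * gauge K`.
-/

namespace Vale.Agent.Lib.P243.H18

open MeasureTheory Set
open scoped Pointwise Topology

/-- Fibers of a convex set are intervals. -/
lemma fiber_Icc {F : Type*} [AddCommGroup F] [Module ℝ F] {K : Set (ℝ × F)}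
    (hconv : Convex ℝ K) {t₁ t₂ : ℝ} {x : F} (h₁ : (t₁, x) ∈ K) (h₂ : (t₂, x) ∈ K) :
    Icc t₁ t₂ ⊆ (fun t => (t, x)) ⁻¹' K := by
  intro t ht
  rcases eq_or_lt_of_le (ht.1.trans ht.2) with h | h
  · have : t = t₁ := le_antisymm (h ▸ ht.2) ht.1
    rw [mem_preimage, this]
    exact h₁
  · have hd : 0 < t₂ - t₁ := sub_pos.2 h
    have ha : 0 ≤ (t₂ - t) / (t₂ - t₁) := div_nonneg (sub_nonneg.2 ht.2) hd.le
    have hb : 0 ≤ (t - t₁) / (t₂ - t₁) := div_nonneg (sub_nonneg.2 ht.1) hd.le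
    have hab : (t₂ - t) / (t₂ - t₁) + (t - t₁) / (t₂ - t₁) = 1 := by
      field_simp
      ring
    have := hconv h₁ h₂ ha hb hab
    have e : ((t₂ - t) / (t₂ - t₁)) • ((t₁, x) : ℝ × F)
        + ((t - t₁) / (t₂ - t₁)) • ((t₂, x) : ℝ × F) = (t, x) := by
      ext
      · simp only [Prod.fst_add, Prod.smul_fst, smul_eq_mul]
        field_simp
        ring
      · simp only [Prod.snd_add, Prod.smul_snd]
        rw [← add_smul, hab, one_smul]
    rw [e] at this
    exact this

/-- Over every point of `(1 - s) [-y, y] + s P` the fiber of `K` is at least `(1 - s)` times as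
long as the chord over `y = (1, 0)`. -/
lemma fiber_ge {K : Set (ℝ × ℝ × ℝ)} (hconv : Convex ℝ K) (hsym : ∀ z ∈ K, -z ∈ K) {α β : ℝ}
    (hα : (α, ((1 : ℝ), (0 : ℝ))) ∈ K) (hβ : (β, ((1 : ℝ), (0 : ℝ))) ∈ K)
    {s l : ℝ} (hs : s ∈ Icc (0 : ℝ) 1) (hl : l ∈ Icc (-1 : ℝ) 1) {p : ℝ × ℝ}
    (hp : p ∈ Prod.snd '' K) :
    ENNReal.ofReal ((1 - s) * (β - α)) ≤
      volume ((fun t => (t, (1 - s) • ((l, 0) : ℝ × ℝ) + s • p)) ⁻¹' K) := by
  obtain ⟨zp, hzp, rfl⟩ := hp
  have hα' : (-α, ((-1 : ℝ), (0 : ℝ))) ∈ K := by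
    have := hsym _ hα
    simpa using this
  have hβ' : (-β, ((-1 : ℝ), (0 : ℝ))) ∈ K := by
    have := hsym _ hβ
    simpa using this
  set θ := (1 + l) / 2 with hθ
  have hθ0 : 0 ≤ θ := by rw [hθ]; linarith [hl.1]
  have hθ1 : 0 ≤ 1 - θ := by rw [hθ]; linarith [hl.2]
  have hq1 : (θ * β - (1 - θ) * α, (l, (0 : ℝ))) ∈ K := by
    have := hconv hβ hα' hθ0 hθ1 (by ring)
    convert this using 1
    ext <;> simp [hθ] <;> ring
  have hq2 : (θ * α - (1 - θ) * β, (l, (0 : ℝ))) ∈ K := by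
    have := hconv hα hβ' hθ0 hθ1 (by ring)
    convert this using 1
    ext <;> simp [hθ] <;> ring
  have hs1 : 0 ≤ 1 - s := by linarith [hs.2]
  have hz1 : ((1 - s) * (θ * β - (1 - θ) * α) + s * zp.1,
      (1 - s) • ((l, 0) : ℝ × ℝ) + s • zp.2) ∈ K :=
    hconv hq1 hzp hs1 hs.1 (by ring)
  have hz2 : ((1 - s) * (θ * α - (1 - θ) * β) + s * zp.1,
      (1 - s) • ((l, 0) : ℝ × ℝ) + s • zp.2) ∈ K :=
    hconv hq2 hzp hs1 hs.1 (by ring)
  have hsub := fiber_Icc hconv hz2 hz1
  calc ENNReal.ofReal ((1 - s) * (β - α))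
      = volume (Icc ((1 - s) * (θ * α - (1 - θ) * β) + s * zp.1)
          ((1 - s) * (θ * β - (1 - θ) * α) + s * zp.1)) := by
        rw [Real.volume_Icc]
        congr 1
        ring
    _ ≤ _ := measure_mono hsub

/-- The roof over `P` with ridge `[-1, 1] × {0}`: pairs `(s, x)` with `0 ≤ s ≤ 1` and
`x ∈ (1 - s) ([-1, 1] × {0}) + s P`. -/
def roof (P : Set (ℝ × ℝ)) : Set (ℝ × ℝ × ℝ) :=
  (fun q : ℝ × ℝ × (ℝ × ℝ) => (q.1, (1 - q.1) • ((q.2.1, 0) : ℝ × ℝ) + q.1 • q.2.2)) ''
    (Icc (0 : ℝ) 1 ×ˢ Icc (-1 : ℝ) 1 ×ˢ P)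

lemma isCompact_roof {P : Set (ℝ × ℝ)} (hP : IsCompact P) : IsCompact (roof P) := by
  refine (isCompact_Icc.prod (isCompact_Icc.prod hP)).image ?_
  fun_prop

/-- The roof is at most `vol K / h`, where `h` is the length of the chord over `(1, 0)`. -/
lemma roof_le {K : Set (ℝ × ℝ × ℝ)} (hK : IsCompact K) (hconv : Convex ℝ K)
    (hsym : ∀ z ∈ K, -z ∈ K) {α β : ℝ} (hα : (α, ((1 : ℝ), (0 : ℝ))) ∈ K)
    (hβ : (β, ((1 : ℝ), (0 : ℝ))) ∈ K) (hαβ : α ≤ β) :
    ENNReal.ofReal (β - α) * volume (roof (Prod.snd '' K)) ≤ volume K := by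
  have hP : IsCompact (Prod.snd '' K) := hK.image continuous_snd
  have hGm := (isCompact_roof hP).measurableSet
  have hKm := hK.measurableSet
  rw [Measure.volume_eq_prod ℝ (ℝ × ℝ), Measure.prod_apply_symm hGm,
    Measure.prod_apply_symm hKm, ← lintegral_const_mul _ (measurable_measure_prodMk_right hGm)]
  refine lintegral_mono fun x => ?_
  set ℓ := volume ((fun t => (t, x)) ⁻¹' K) with hℓ
  rcases eq_or_lt_of_le hαβ with h | h
  · rw [h, sub_self, ENNReal.ofReal_zero, zero_mul]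
    exact zero_le
  rcases eq_or_ne ℓ ⊤ with htop | htop
  · rw [htop]
    exact le_top
  have hd : 0 < β - α := sub_pos.2 h
  have hsub : (fun s => (s, x)) ⁻¹' roof (Prod.snd '' K) ⊆ Icc (1 - ℓ.toReal / (β - α)) 1 := by
    rintro s ⟨⟨s', l, p⟩, ⟨hs, hl, hp⟩, heq⟩
    have hs' : s' = s := congrArg Prod.fst heq
    have hx : (1 - s') • ((l, 0) : ℝ × ℝ) + s' • p = x := congrArg Prod.snd heq
    subst hs'
    have hge := fiber_ge hconv hsym hα hβ hs hl hp
    rw [hx] at hge
    have h2 : (1 - s') * (β - α) ≤ ℓ.toReal := (ENNReal.ofReal_le_iff_le_toReal htop).1 hge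
    refine ⟨?_, hs.2⟩
    have h3 : 1 - s' ≤ ℓ.toReal / (β - α) := (le_div_iff₀ hd).2 h2
    linarith
  calc ENNReal.ofReal (β - α) * volume ((fun s => (s, x)) ⁻¹' roof (Prod.snd '' K))
      ≤ ENNReal.ofReal (β - α) * volume (Icc (1 - ℓ.toReal / (β - α)) 1) := by
        gcongr
    _ = ENNReal.ofReal (β - α) * ENNReal.ofReal (ℓ.toReal / (β - α)) := by
        rw [Real.volume_Icc]
        congr 2
        ring
    _ = ℓ := by
        rw [← ENNReal.ofReal_mul hd.le, mul_div_cancel₀ _ hd.ne', ENNReal.ofReal_toReal htop]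

lemma lintegral_sq_Ioc : ∫⁻ s in Ioc (0 : ℝ) 1, ENNReal.ofReal (s ^ 2) = ENNReal.ofReal (1 / 3) := by
  have hint : IntegrableOn (fun s : ℝ => s ^ 2) (Ioc 0 1) :=
    ((Continuous.continuousOn (by fun_prop)).integrableOn_compact isCompact_Icc).mono_set
      Ioc_subset_Icc_self
  rw [← ofReal_integral_eq_lintegral_ofReal hint
    (Filter.Eventually.of_forall fun s => sq_nonneg _),
    ← intervalIntegral.integral_of_le zero_le_one, integral_pow]
  norm_num

lemma lintegral_two_mul_Ioc :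
    ∫⁻ s in Ioc (0 : ℝ) 1, ENNReal.ofReal (2 * s * (1 - s)) = ENNReal.ofReal (1 / 3) := by
  have hint : IntegrableOn (fun s : ℝ => 2 * s * (1 - s)) (Ioc 0 1) :=
    ((Continuous.continuousOn (by fun_prop)).integrableOn_compact isCompact_Icc).mono_set
      Ioc_subset_Icc_self
  have hnn : 0 ≤ᵐ[volume.restrict (Ioc (0 : ℝ) 1)] fun s : ℝ => 2 * s * (1 - s) := by
    refine (ae_restrict_iff' measurableSet_Ioc).2 (Filter.Eventually.of_forall fun s hs => ?_)
    have h1 : 0 ≤ 1 - s := by linarith [hs.2]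
    have h2 : 0 ≤ s := hs.1.le
    positivity
  rw [← ofReal_integral_eq_lintegral_ofReal hint hnn,
    ← intervalIntegral.integral_of_le zero_le_one]
  congr 1
  have e : ∀ s : ℝ, 2 * s * (1 - s) = 2 * s - 2 * s ^ 2 := fun s => by ring
  simp_rw [e]
  rw [intervalIntegral.integral_sub (Continuous.intervalIntegrable (by fun_prop) _ _)
    (Continuous.intervalIntegrable (by fun_prop) _ _), intervalIntegral.integral_const_mul,
    intervalIntegral.integral_const_mul, integral_id, integral_pow]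
  norm_num

/-- Volume of the roof: at least a third of the area of `P` plus a third of the length of the
projection of `P` to the second coordinate. -/
lemma roof_ge {P : Set (ℝ × ℝ)} (hP : IsCompact P) :
    ENNReal.ofReal (1 / 3) * volume P + ENNReal.ofReal (1 / 3) * volume (Prod.snd '' P)
      ≤ volume (roof P) := by
  have hGm := (isCompact_roof hP).measurableSet
  have h1 : ∀ s ∈ Ioc (0 : ℝ) 1, ENNReal.ofReal (s ^ 2) * volume P
      + ENNReal.ofReal (2 * s * (1 - s)) * volume (Prod.snd '' P)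
      ≤ volume (Prod.mk s ⁻¹' roof P) := by
    intro s hs
    have hs1 : 0 ≤ 1 - s := by linarith [hs.2]
    have hc : 0 ≤ (1 - s) / s := div_nonneg hs1 hs.1.le
    have hsub : s • sweep P ((1 - s) / s) ⊆ Prod.mk s ⁻¹' roof P := by
      rintro _ ⟨_, ⟨⟨p, l⟩, ⟨hp, hl⟩, rfl⟩, rfl⟩
      rcases eq_or_lt_of_le hs.2 with h1 | h1
      · have hl0 : l = 0 := by
          have h2 : (1 - s) / s = 0 := by rw [h1]; simp
          rw [h2] at hl
          simp only [neg_zero] at hl
          exact le_antisymm hl.2 hl.1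
        refine ⟨(s, 0, p), ⟨⟨hs.1.le, hs.2⟩, ⟨by norm_num, by norm_num⟩, hp⟩, ?_⟩
        simp only [hl0, h1]
        ext <;> simp
      · have hpos : 0 < 1 - s := sub_pos.2 h1
        have hs0 : s ≠ 0 := hs.1.ne'
        have h1s : 1 - s ≠ 0 := hpos.ne'
        refine ⟨(s, s * l / (1 - s), p), ⟨⟨hs.1.le, hs.2⟩, ⟨?_, ?_⟩, hp⟩, ?_⟩
        · rw [le_div_iff₀ hpos]
          have := hl.1
          have h3 : s * (-((1 - s) / s)) = -(1 - s) := by
            field_simp
          nlinarith [mul_le_mul_of_nonneg_left this hs.1.le]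
        · rw [div_le_iff₀ hpos]
          have := hl.2
          have h3 : s * ((1 - s) / s) = 1 - s := by
            field_simp
          nlinarith [mul_le_mul_of_nonneg_left this hs.1.le]
        · refine Prod.ext rfl (Prod.ext ?_ ?_)
          · simp only [Prod.fst_add, Prod.smul_fst, smul_eq_mul]
            field_simp
            ring
          · simp
    have hfr : Module.finrank ℝ (ℝ × ℝ) = 2 := by simp
    calc ENNReal.ofReal (s ^ 2) * volume P
          + ENNReal.ofReal (2 * s * (1 - s)) * volume (Prod.snd '' P)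
        = ENNReal.ofReal (s ^ 2) * (volume P
          + ENNReal.ofReal (2 * ((1 - s) / s)) * volume (Prod.snd '' P)) := by
          rw [mul_add, ← mul_assoc, ← ENNReal.ofReal_mul (sq_nonneg s)]
          congr 3
          have := hs.1.ne'
          field_simp
      _ ≤ ENNReal.ofReal (s ^ 2) * volume (sweep P ((1 - s) / s)) := by
          gcongr
          exact sweep_volume P hP _ hc
      _ = volume (s • sweep P ((1 - s) / s)) := by
          rw [Measure.addHaar_smul, hfr, abs_of_nonneg (sq_nonneg _)]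
      _ ≤ _ := measure_mono hsub
  rw [Measure.volume_eq_prod ℝ (ℝ × ℝ), Measure.prod_apply hGm]
  have hm1 : Measurable fun s : ℝ => ENNReal.ofReal (s ^ 2) :=
    ENNReal.measurable_ofReal.comp (by fun_prop)
  have hm2 : Measurable fun s : ℝ => ENNReal.ofReal (2 * s * (1 - s)) :=
    ENNReal.measurable_ofReal.comp (by fun_prop)
  calc ENNReal.ofReal (1 / 3) * volume P + ENNReal.ofReal (1 / 3) * volume (Prod.snd '' P)
      = ∫⁻ s in Ioc (0 : ℝ) 1, (ENNReal.ofReal (s ^ 2) * volume P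
          + ENNReal.ofReal (2 * s * (1 - s)) * volume (Prod.snd '' P)) := by
        rw [lintegral_add_left (hm1.mul_const _), lintegral_mul_const _ hm1,
          lintegral_mul_const _ hm2, lintegral_sq_Ioc, lintegral_two_mul_Ioc]
    _ ≤ ∫⁻ s in Ioc (0 : ℝ) 1, volume (Prod.mk s ⁻¹' roof P) :=
        setLIntegral_mono' measurableSet_Ioc h1
    _ ≤ _ := setLIntegral_le_lintegral _ _

end Vale.Agent.Lib.P243.H18
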