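import Mathlib
import Vale.Agent.Lib.P243.helper18.SymRoof

/-!
The weighted chord bound in normalized coordinates: for a centrally symmetric convex body `K`
in `ℝ × ℝ × ℝ`, the integral of `1 + 2 * gauge K` over the chord `{(t, 1, 0)}` of `K`, times the
area of the projection of `K` along the first coordinate, is at most `6 vol K`.
-/

namespace Vale.Agent.Lib.P243.H18

open MeasureTheory Set
open scoped Pointwise Topology

/-- Convexity of the gauge along lines parallel to the first coordinate axis. -/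
lemma gauge_line_convex {F : Type*} [AddCommGroup F] [Module ℝ F] {K : Set (ℝ × F)}
    (hconv : Convex ℝ K) (habs : Absorbent ℝ K) (y : F) :
    ConvexOn ℝ univ fun t : ℝ => gauge K (t, y) := by
  refine ⟨convex_univ, fun t₁ _ t₂ _ a b ha hb hab => ?_⟩
  have e : ((a • t₁ + b • t₂, y) : ℝ × F) = a • (t₁, y) + b • (t₂, y) := by
    ext
    · simp
    · simp only [Prod.snd_add, Prod.smul_snd]
      rw [← add_smul, hab, one_smul]
  show gauge K (a • t₁ + b • t₂, y) ≤ a • gauge K (t₁, y) + b • gauge K (t₂, y)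
  rw [e]
  refine (gauge_add_le hconv habs _ _).trans ?_
  rw [gauge_smul_of_nonneg ha, gauge_smul_of_nonneg hb]

/-- The normalized weighted chord bound. -/
lemma normalized_bound (K : Set (ℝ × ℝ × ℝ)) (hK : IsCompact K) (hconv : Convex ℝ K)
    (hsym : ∀ z ∈ K, -z ∈ K) (h0 : K ∈ 𝓝 0) :
    (∫⁻ t, K.indicator (fun z => ENNReal.ofReal (1 + 2 * gauge K z)) (t, ((1 : ℝ), (0 : ℝ))))
      * volume (Prod.snd '' K) ≤ 6 * volume K := by
  set A : Set ℝ := (fun t => (t, ((1 : ℝ), (0 : ℝ)))) ⁻¹' K with hA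
  by_cases hne : A.Nonempty
  swap
  · have hz : ∀ t, K.indicator (fun z => ENNReal.ofReal (1 + 2 * gauge K z))
        (t, ((1 : ℝ), (0 : ℝ))) = 0 :=
      fun t => indicator_of_notMem (s := K) (fun h => hne ⟨t, h⟩) _
    simp only [hz, lintegral_zero, zero_mul]
    exact zero_le
  have hAc : IsCompact A := by
    have hcl : IsClosed A := hK.isClosed.preimage (by fun_prop)
    refine (hK.image continuous_fst).of_isClosed_subset hcl ?_
    intro t ht
    exact ⟨(t, ((1 : ℝ), (0 : ℝ))), ht, rfl⟩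
  set α := sInf A with hαdef
  set β := sSup A with hβdef
  have hα : (α, ((1 : ℝ), (0 : ℝ))) ∈ K := hAc.sInf_mem hne
  have hβ : (β, ((1 : ℝ), (0 : ℝ))) ∈ K := hAc.sSup_mem hne
  have hAsub : A ⊆ Icc α β := fun t ht => ⟨csInf_le hAc.bddBelow ht, le_csSup hAc.bddAbove ht⟩
  have hαβ : α ≤ β := (hAsub hα).2
  set N : ℝ → ℝ := fun t => gauge K (t, ((1 : ℝ), (0 : ℝ))) with hN
  have habs : Absorbent ℝ K := absorbent_nhds_zero h0
  have hNc : Continuous N := (continuous_gauge hconv h0).comp (by fun_prop)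
  have hNconv : ConvexOn ℝ univ N := gauge_line_convex hconv habs _
  obtain ⟨s, hs, hmin⟩ := isCompact_Icc.exists_isMinOn (nonempty_Icc.2 hαβ) hNc.continuousOn
  have hmin' : ∀ t ∈ Icc α β, N s ≤ N t := isMinOn_iff.1 hmin
  have hρ1 : N s ≤ 1 := (hmin' α ⟨le_rfl, hαβ⟩).trans (gauge_le_one_of_mem hα)
  have hρ0 : 0 ≤ N s := gauge_nonneg _
  have hX : ∫⁻ t, K.indicator (fun z => ENNReal.ofReal (1 + 2 * gauge K z))
      (t, ((1 : ℝ), (0 : ℝ))) ≤ ENNReal.ofReal ((β - α) * (2 + N s)) := by
    calc ∫⁻ t, K.indicator (fun z => ENNReal.ofReal (1 + 2 * gauge K z))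
          (t, ((1 : ℝ), (0 : ℝ)))
        ≤ ∫⁻ t, (Icc α β).indicator (fun t => ENNReal.ofReal (1 + 2 * N t)) t := by
          refine lintegral_mono fun t => ?_
          by_cases ht : (t, ((1 : ℝ), (0 : ℝ))) ∈ K
          · rw [indicator_of_mem ht, indicator_of_mem (hAsub ht)]
          · rw [indicator_of_notMem ht]
            exact zero_le
      _ = ∫⁻ t in Icc α β, ENNReal.ofReal (1 + 2 * N t) :=
          lintegral_indicator measurableSet_Icc _
      _ ≤ _ := chord_weight_lintegral hNconv hNc (fun t => gauge_nonneg _) hs.1 hs.2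
          (gauge_le_one_of_mem hα) (gauge_le_one_of_mem hβ)
  have hP : IsCompact (Prod.snd '' K) := hK.image continuous_snd
  have hzero : (0 : ℝ × ℝ × ℝ) ∈ K := mem_of_mem_nhds h0
  have hchord : ∀ x x' τ, (x, τ) ∈ Prod.snd '' K → (x', τ) ∈ Prod.snd '' K →
      N s * |x - x'| ≤ 2 := by
    intro x x' τ hx hx'
    rcases le_or_gt |x - x'| 2 with hL | hL
    · nlinarith [abs_nonneg (x - x')]
    · -- a point of `K` over `(|x - x'| / 2, 0)`
      have hw : ∃ t₁ : ℝ, (t₁, (|x - x'| / 2, (0 : ℝ))) ∈ K := by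
        obtain ⟨z, hz, hzx⟩ := hx
        obtain ⟨z', hz', hzx'⟩ := hx'
        have h2 : (0 : ℝ) ≤ 1 / 2 := by norm_num
        rcases le_total x' x with h | h
        · refine ⟨(z.1 - z'.1) / 2, ?_⟩
          have := hconv hz (hsym _ hz') h2 h2 (by norm_num)
          convert this using 1
          refine Prod.ext ?_ (Prod.ext ?_ ?_)
          · simp
            ring
          · have e1 : z.2.1 = x := congrArg Prod.fst hzx
            have e2 : z'.2.1 = x' := congrArg Prod.fst hzx'
            simp [e1, e2, abs_of_nonneg (sub_nonneg.2 h)]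
            ring
          · have e1 : z.2.2 = τ := congrArg Prod.snd hzx
            have e2 : z'.2.2 = τ := congrArg Prod.snd hzx'
            simp [e1, e2]
        · refine ⟨(z'.1 - z.1) / 2, ?_⟩
          have := hconv hz' (hsym _ hz) h2 h2 (by norm_num)
          convert this using 1
          refine Prod.ext ?_ (Prod.ext ?_ ?_)
          · simp
            ring
          · have e1 : z.2.1 = x := congrArg Prod.fst hzx
            have e2 : z'.2.1 = x' := congrArg Prod.fst hzx'
            simp [e1, e2, abs_of_nonpos (sub_nonpos.2 h)]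
            ring
          · have e1 : z.2.2 = τ := congrArg Prod.snd hzx
            have e2 : z'.2.2 = τ := congrArg Prod.snd hzx'
            simp [e1, e2]
      obtain ⟨t₁, ht₁⟩ := hw
      have hLpos : 0 < |x - x'| := by linarith
      have hc0 : 0 ≤ 2 / |x - x'| := by positivity
      have hc1 : 2 / |x - x'| ≤ 1 := (div_le_one hLpos).2 hL.le
      have hmem : (2 / |x - x'|) • ((t₁, (|x - x'| / 2, (0 : ℝ))) : ℝ × ℝ × ℝ) ∈ K :=
        hconv.smul_mem_of_zero_mem hzero ht₁ ⟨hc0, hc1⟩
      have e : (2 / |x - x'|) • ((t₁, (|x - x'| / 2, (0 : ℝ))) : ℝ × ℝ × ℝ)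
          = (2 / |x - x'| * t₁, ((1 : ℝ), (0 : ℝ))) := by
        refine Prod.ext rfl (Prod.ext ?_ ?_)
        · simp only [Prod.smul_snd, Prod.smul_fst, smul_eq_mul]
          field_simp
        · simp
      have hin : 2 / |x - x'| * t₁ ∈ A := by
        rw [hA, mem_preimage, ← e]
        exact hmem
      have h1 := hmin' _ (hAsub hin)
      have h2 : N (2 / |x - x'| * t₁) ≤ 2 / |x - x'| := by
        rw [hN]
        dsimp only
        rw [← e, gauge_smul_of_nonneg hc0, smul_eq_mul]
        calc 2 / |x - x'| * gauge K (t₁, (|x - x'| / 2, (0 : ℝ))) ≤ 2 / |x - x'| * 1 :=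
              mul_le_mul_of_nonneg_left (gauge_le_one_of_mem ht₁) hc0
          _ = _ := mul_one _
      have h3 : N s ≤ 2 / |x - x'| := h1.trans h2
      rw [le_div_iff₀ hLpos] at h3
      exact h3
  have h4 := chord_area _ hP (N s) hρ0 hchord
  have h3a := roof_le hK hconv hsym hα hβ hαβ
  have h3b := roof_ge hP
  have h6 : (6 : ENNReal) * ENNReal.ofReal (1 / 3) = 2 := by
    rw [show (6 : ENNReal) = ENNReal.ofReal 6 by simp, ← ENNReal.ofReal_mul (by norm_num)]
    norm_num
  calc (∫⁻ t, K.indicator (fun z => ENNReal.ofReal (1 + 2 * gauge K z))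
        (t, ((1 : ℝ), (0 : ℝ)))) * volume (Prod.snd '' K)
      ≤ ENNReal.ofReal ((β - α) * (2 + N s)) * volume (Prod.snd '' K) := by
        gcongr
    _ = ENNReal.ofReal (β - α) * (2 * volume (Prod.snd '' K)
          + ENNReal.ofReal (N s) * volume (Prod.snd '' K)) := by
        rw [ENNReal.ofReal_mul (sub_nonneg.2 hαβ), ENNReal.ofReal_add zero_le_two hρ0,
          ENNReal.ofReal_ofNat]
        ring
    _ ≤ ENNReal.ofReal (β - α) * (2 * volume (Prod.snd '' K)
          + 2 * volume (Prod.snd '' (Prod.snd '' K))) := by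
        gcongr
    _ = 6 * (ENNReal.ofReal (β - α) * (ENNReal.ofReal (1 / 3) * volume (Prod.snd '' K)
          + ENNReal.ofReal (1 / 3) * volume (Prod.snd '' (Prod.snd '' K)))) := by
        rw [← h6]
        ring
    _ ≤ 6 * (ENNReal.ofReal (β - α) * volume (roof (Prod.snd '' K))) := by
        gcongr
    _ ≤ 6 * volume K := by
        gcongr

end Vale.Agent.Lib.P243.H18
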