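import Mathlib
import Vale.Agent.Lib.P243.helper18.SymNorm
import Vale.Agent.Lib.P243.helper18.TetraAffine

/-!
The weighted chord bound for every chord parallel to the first coordinate axis, and the capture
bound for a cylinder, for a centrally symmetric convex body in `ℝ × ℝ × ℝ`.
-/

namespace Vale.Agent.Lib.P243.H18

open MeasureTheory Set
open scoped Pointwise Topology

/-- Gauge of a preimage under a linear map. -/
lemma gauge_preimage_linear {E F : Type*} [AddCommGroup E] [Module ℝ E] [AddCommGroup F]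
    [Module ℝ F] (L : E →ₗ[ℝ] F) (s : Set F) (x : E) : gauge (L ⁻¹' s) x = gauge s (L x) := by
  simp only [gauge_def', mem_preimage, map_smul]

/-- The planar linear map sending `(1, 0)` to `y` and `(0, 1)` to the rotation of `y`. -/
noncomputable def rotL (y : ℝ × ℝ) : ℝ × ℝ →ₗ[ℝ] ℝ × ℝ :=
  (LinearMap.fst ℝ ℝ ℝ).smulRight y + (LinearMap.snd ℝ ℝ ℝ).smulRight ((-y.2, y.1) : ℝ × ℝ)

lemma rotL_apply (y x : ℝ × ℝ) :
    rotL y x = (x.1 * y.1 - x.2 * y.2, x.1 * y.2 + x.2 * y.1) := by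
  refine Prod.ext ?_ ?_
  · simp [rotL]
    ring
  · simp [rotL]

lemma rotL_injective (y : ℝ × ℝ) (hy : y ≠ 0) : Function.Injective (rotL y) := by
  rw [← LinearMap.ker_eq_bot, LinearMap.ker_eq_bot']
  intro x hx
  rw [rotL_apply] at hx
  have h1 : x.1 * y.1 - x.2 * y.2 = 0 := congrArg Prod.fst hx
  have h2 : x.1 * y.2 + x.2 * y.1 = 0 := congrArg Prod.snd hx
  have hd : y.1 ^ 2 + y.2 ^ 2 ≠ 0 := by
    intro h3
    have h4 : y.1 = 0 := by nlinarith [sq_nonneg y.1, sq_nonneg y.2]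
    have h5 : y.2 = 0 := by nlinarith [sq_nonneg y.1, sq_nonneg y.2]
    exact hy (Prod.ext h4 h5)
  have e1 : x.1 * (y.1 ^ 2 + y.2 ^ 2) = 0 := by linear_combination y.1 * h1 + y.2 * h2
  have e2 : x.2 * (y.1 ^ 2 + y.2 ^ 2) = 0 := by linear_combination y.1 * h2 - y.2 * h1
  have f1 : x.1 = 0 := (mul_eq_zero.1 e1).resolve_right hd
  have f2 : x.2 = 0 := (mul_eq_zero.1 e2).resolve_right hd
  exact Prod.ext f1 f2

/-- The planar map as a continuous linear equivalence. -/
noncomputable def rotE (y : ℝ × ℝ) (hy : y ≠ 0) : (ℝ × ℝ) ≃L[ℝ] (ℝ × ℝ) :=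
  (LinearMap.linearEquivOfInjective (rotL y) (rotL_injective y hy) rfl).toContinuousLinearEquiv

lemma rotE_apply (y : ℝ × ℝ) (hy : y ≠ 0) (x : ℝ × ℝ) : rotE y hy x = rotL y x := rfl

/-- The weighted chord bound for the chord over any point `y ≠ 0` of the projection. -/
lemma chord_bound (K : Set (ℝ × ℝ × ℝ)) (hK : IsCompact K) (hconv : Convex ℝ K)
    (hsym : ∀ z ∈ K, -z ∈ K) (h0 : K ∈ 𝓝 0) (y : ℝ × ℝ) (hy : y ≠ 0) :
    (∫⁻ t, K.indicator (fun z => ENNReal.ofReal (1 + 2 * gauge K z)) (t, y))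
      * volume (Prod.snd '' K) ≤ 6 * volume K := by
  set G := rotE y hy with hG
  set Φ : (ℝ × ℝ × ℝ) ≃L[ℝ] (ℝ × ℝ × ℝ) := (ContinuousLinearEquiv.refl ℝ ℝ).prodCongr G with hΦ
  have hΦa : ∀ z, Φ z = (z.1, G z.2) := fun z => rfl
  set K' := Φ ⁻¹' K with hK'
  have hK'c : IsCompact K' := Φ.toHomeomorph.isCompact_preimage.2 hK
  have hK'conv : Convex ℝ K' := hconv.linear_preimage (Φ : (ℝ × ℝ × ℝ) →ₗ[ℝ] (ℝ × ℝ × ℝ))
  have hK'sym : ∀ z ∈ K', -z ∈ K' := fun z hz => by
    show Φ (-z) ∈ K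
    rw [map_neg]
    exact hsym _ hz
  have hK'0 : K' ∈ 𝓝 0 :=
    Φ.continuous.continuousAt.preimage_mem_nhds (by rw [map_zero]; exact h0)
  have hnorm := normalized_bound K' hK'c hK'conv hK'sym hK'0
  have hGy : G (1, 0) = y := by
    rw [hG, rotE_apply, rotL_apply]
    ext <;> simp
  have hint : ∀ t, K'.indicator (fun z => ENNReal.ofReal (1 + 2 * gauge K' z))
      (t, ((1 : ℝ), (0 : ℝ)))
      = K.indicator (fun z => ENNReal.ofReal (1 + 2 * gauge K z)) (t, y) := by
    intro t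
    have hΦt : Φ (t, ((1 : ℝ), (0 : ℝ))) = (t, y) := by rw [hΦa, hGy]
    have hg : gauge K' (t, ((1 : ℝ), (0 : ℝ))) = gauge K (t, y) := by
      rw [hK', ← hΦt]
      exact gauge_preimage_linear (Φ : (ℝ × ℝ × ℝ) →ₗ[ℝ] (ℝ × ℝ × ℝ)) K _
    by_cases ht : (t, y) ∈ K
    · have ht' : (t, ((1 : ℝ), (0 : ℝ))) ∈ K' := by
        show Φ _ ∈ K
        rw [hΦt]
        exact ht
      rw [indicator_of_mem ht, indicator_of_mem ht', hg]
    · have ht' : (t, ((1 : ℝ), (0 : ℝ))) ∉ K' := by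
        intro h
        apply ht
        rw [← hΦt]
        exact h
      rw [indicator_of_notMem ht, indicator_of_notMem ht']
  simp only [hint] at hnorm
  obtain ⟨d, -, -, hd⟩ := exists_scale (volume : Measure (ℝ × ℝ)) (volume : Measure (ℝ × ℝ)) G 0
  simp only [zero_add] at hd
  have hP : Prod.snd '' K = G '' (Prod.snd '' K') := by
    ext w
    constructor
    · rintro ⟨z, hz, rfl⟩
      refine ⟨G.symm z.2, ⟨(z.1, G.symm z.2), ?_, rfl⟩, by simp⟩
      show Φ (z.1, G.symm z.2) ∈ K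
      rw [hΦa]
      simpa using hz
    · rintro ⟨_, ⟨z, hz, rfl⟩, rfl⟩
      exact ⟨Φ z, hz, rfl⟩
  have hV : volume K = d * volume K' := by
    have hKm := hK.measurableSet
    have hK'm := hK'c.measurableSet
    rw [Measure.volume_eq_prod ℝ (ℝ × ℝ), Measure.prod_apply hKm, Measure.prod_apply hK'm,
      ← lintegral_const_mul _ (measurable_measure_prodMk_left hK'm)]
    refine lintegral_congr fun t => ?_
    rw [← hd]
    congr 1
    ext w
    constructor
    · intro hw
      refine ⟨G.symm w, ?_, by simp⟩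
      show Φ (t, G.symm w) ∈ K
      rw [hΦa]
      simpa using hw
    · rintro ⟨x, hx, rfl⟩
      exact hx
  rw [hP, hd, hV]
  calc (∫⁻ t, K.indicator (fun z => ENNReal.ofReal (1 + 2 * gauge K z)) (t, y))
        * (d * volume (Prod.snd '' K'))
      = d * ((∫⁻ t, K.indicator (fun z => ENNReal.ofReal (1 + 2 * gauge K z)) (t, y))
        * volume (Prod.snd '' K')) := by ring
    _ ≤ d * (6 * volume K') := by gcongr
    _ = 6 * (d * volume K') := by ring

/-- Capture bound for a cylinder with axis parallel to the first coordinate axis: the mass of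
the density `1 + 2 * gauge K` on the part of `K` over `W`. -/
lemma model_capture (K : Set (ℝ × ℝ × ℝ)) (hK : IsCompact K) (hconv : Convex ℝ K)
    (hsym : ∀ z ∈ K, -z ∈ K) (h0 : K ∈ 𝓝 0) (W : Set (ℝ × ℝ)) (hW : MeasurableSet W) :
    (∫⁻ z in K ∩ Prod.snd ⁻¹' W, ENNReal.ofReal (1 + 2 * gauge K z)) * volume (Prod.snd '' K)
      ≤ 6 * volume K * volume W := by
  have hKm := hK.measurableSet
  have hg : Measurable (gauge K) := (continuous_gauge hconv h0).measurable
  have hf : Measurable fun z : ℝ × ℝ × ℝ => ENNReal.ofReal (1 + 2 * gauge K z) :=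
    ENNReal.measurable_ofReal.comp (measurable_const.add (measurable_const.mul hg))
  have hSm : MeasurableSet (K ∩ Prod.snd ⁻¹' W) := hKm.inter (measurable_snd hW)
  set X : ℝ × ℝ → ENNReal := fun y =>
    ∫⁻ t, K.indicator (fun z => ENNReal.ofReal (1 + 2 * gauge K z)) (t, y) with hX
  have hXm : Measurable X := (hf.indicator hKm).lintegral_prod_left'
  have h1 : ∫⁻ z in K ∩ Prod.snd ⁻¹' W, ENNReal.ofReal (1 + 2 * gauge K z)
      = ∫⁻ y in W, X y := by
    rw [← lintegral_indicator hSm, Measure.volume_eq_prod ℝ (ℝ × ℝ),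
      lintegral_prod_symm _ ((hf.indicator hSm).aemeasurable), ← lintegral_indicator hW]
    refine lintegral_congr fun y => ?_
    by_cases hy : y ∈ W
    · rw [indicator_of_mem hy]
      refine lintegral_congr fun t => ?_
      by_cases ht : (t, y) ∈ K
      · rw [indicator_of_mem (show (t, y) ∈ K ∩ Prod.snd ⁻¹' W from ⟨ht, hy⟩),
          indicator_of_mem ht]
      · rw [indicator_of_notMem (s := K ∩ Prod.snd ⁻¹' W) (fun h => ht h.1),
          indicator_of_notMem ht]
    · rw [indicator_of_notMem hy]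
      have hz : ∀ t, (K ∩ Prod.snd ⁻¹' W).indicator
          (fun z => ENNReal.ofReal (1 + 2 * gauge K z)) (t, y) = 0 :=
        fun t => indicator_of_notMem (s := K ∩ Prod.snd ⁻¹' W) (fun h => hy h.2) _
      simp only [hz, lintegral_zero]
  have hae : ∀ᵐ y : ℝ × ℝ, X y * volume (Prod.snd '' K) ≤ 6 * volume K := by
    have h0' : ∀ᵐ y : ℝ × ℝ, y ∉ ({0} : Set (ℝ × ℝ)) :=
      measure_eq_zero_iff_ae_notMem.1 (measure_singleton _)
    filter_upwards [h0'] with y hy
    exact chord_bound K hK hconv hsym h0 y (by simpa using hy)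
  rw [h1, ← lintegral_mul_const _ hXm]
  calc ∫⁻ y in W, X y * volume (Prod.snd '' K) ≤ ∫⁻ _ in W, 6 * volume K :=
        lintegral_mono_ae (ae_restrict_of_ae hae)
    _ = 6 * volume K * volume W := by rw [setLIntegral_const]

end Vale.Agent.Lib.P243.H18
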