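import Mathlib
import Vale.Agent.Lib.P243.helper18.TetraCyl
import Vale.Agent.Lib.P243.helper18.SymTransfer

/-!
The total mass of the density `1 + 2 * gauge K` on a convex body `K` of Euclidean 3-space with
the origin in its interior, and the change of variables to the model space `ℝ × ℝ × ℝ`.
-/

namespace Vale.Agent.Lib.P243.H18

open MeasureTheory Set
open scoped Pointwise Topology

lemma lintegral_one_sub_cube_Ioc :
    ∫⁻ t in Ioc (0 : ℝ) 1, ENNReal.ofReal (1 - t ^ 3) = ENNReal.ofReal (3 / 4) := by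
  have hint : IntegrableOn (fun t : ℝ => 1 - t ^ 3) (Ioc 0 1) :=
    ((Continuous.continuousOn (by fun_prop)).integrableOn_compact isCompact_Icc).mono_set
      Ioc_subset_Icc_self
  have hnn : 0 ≤ᵐ[volume.restrict (Ioc (0 : ℝ) 1)] fun t : ℝ => 1 - t ^ 3 := by
    refine (ae_restrict_iff' measurableSet_Ioc).2 (Filter.Eventually.of_forall fun t ht => ?_)
    have h1 : t ^ 3 ≤ 1 := pow_le_one₀ ht.1.le ht.2
    show (0 : ℝ) ≤ 1 - t ^ 3
    linarith
  rw [← ofReal_integral_eq_lintegral_ofReal hint hnn,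
    ← intervalIntegral.integral_of_le zero_le_one]
  congr 1
  rw [intervalIntegral.integral_sub (Continuous.intervalIntegrable (by fun_prop) _ _)
    (Continuous.intervalIntegrable (by fun_prop) _ _), intervalIntegral.integral_const,
    integral_pow]
  norm_num

/-- Mass of the density `1 + 2 * gauge K`: at least `5 / 2` times the volume of `K`. -/
lemma gauge_mass (K : Set V3) (hK : IsCompact K) (hconv : Convex ℝ K) (h0 : K ∈ 𝓝 0) :
    ENNReal.ofReal (5 / 2) * volume K ≤ ∫⁻ x in K, ENNReal.ofReal (1 + 2 * gauge K x) := by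
  have hg : Continuous (gauge K) := continuous_gauge hconv h0
  have hfin : volume K ≠ ⊤ := hK.measure_lt_top.ne
  have hfr : Module.finrank ℝ V3 = 3 := by simp
  have hlc : ∫⁻ x in K, ENNReal.ofReal (gauge K x)
      = ∫⁻ t in Ioi (0 : ℝ), (volume.restrict K) {a | t < gauge K a} :=
    lintegral_eq_lintegral_meas_lt (volume.restrict K)
      (Filter.Eventually.of_forall fun x => gauge_nonneg x) hg.measurable.aemeasurable
  have hlevel : ∀ t ∈ Ioc (0 : ℝ) 1, ENNReal.ofReal (1 - t ^ 3) * volume K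
      ≤ (volume.restrict K) {a | t < gauge K a} := by
    intro t ht
    rw [Measure.restrict_apply (measurableSet_lt measurable_const hg.measurable)]
    have hsub : K \ (t • K) ⊆ {a | t < gauge K a} ∩ K := by
      rintro x ⟨hx, hxt⟩
      refine ⟨?_, hx⟩
      by_contra hle
      apply hxt
      have hle' : gauge K x ≤ t := not_lt.1 hle
      have h1 : gauge K (t⁻¹ • x) ≤ 1 := by
        rw [gauge_smul_of_nonneg (inv_nonneg.2 ht.1.le), smul_eq_mul, inv_mul_le_iff₀ ht.1,
          mul_one]
        exact hle'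
      have hmem : t⁻¹ • x ∈ closure K := (gauge_le_one_iff_mem_closure hconv h0).1 h1
      rw [hK.isClosed.closure_eq] at hmem
      exact (mem_smul_set_iff_inv_smul_mem₀ ht.1.ne' _ _).2 hmem
    have htK : t • K ⊆ K := by
      rintro _ ⟨x, hx, rfl⟩
      exact hconv.smul_mem_of_zero_mem (mem_of_mem_nhds h0) hx ⟨ht.1.le, ht.2⟩
    have ht3 : (0 : ℝ) ≤ t ^ 3 := pow_nonneg ht.1.le 3
    have hvt : volume (t • K) = ENNReal.ofReal (t ^ 3) * volume K := by
      rw [Measure.addHaar_smul, hfr, abs_of_nonneg ht3]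
    calc ENNReal.ofReal (1 - t ^ 3) * volume K = volume K - volume (t • K) := by
          rw [hvt, ENNReal.ofReal_sub _ ht3, ENNReal.sub_mul (fun _ _ => hfin)]
          simp
      _ = volume (K \ t • K) :=
          (measure_sdiff htK (hK.smul t).measurableSet.nullMeasurableSet
            ((hK.smul t).measure_lt_top.ne)).symm
      _ ≤ _ := measure_mono hsub
  have hge : ENNReal.ofReal (3 / 4) * volume K ≤ ∫⁻ x in K, ENNReal.ofReal (gauge K x) := by
    rw [hlc]
    calc ENNReal.ofReal (3 / 4) * volume K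
        = ∫⁻ t in Ioc (0 : ℝ) 1, ENNReal.ofReal (1 - t ^ 3) * volume K := by
          rw [lintegral_mul_const' _ _ hfin, lintegral_one_sub_cube_Ioc]
      _ ≤ ∫⁻ t in Ioc (0 : ℝ) 1, (volume.restrict K) {a | t < gauge K a} :=
          setLIntegral_mono' measurableSet_Ioc hlevel
      _ ≤ _ := lintegral_mono_set Ioc_subset_Ioi_self
  have hsplit : ∫⁻ x in K, ENNReal.ofReal (1 + 2 * gauge K x)
      = volume K + 2 * ∫⁻ x in K, ENNReal.ofReal (gauge K x) := by
    have e : ∀ x, ENNReal.ofReal (1 + 2 * gauge K x) = 1 + 2 * ENNReal.ofReal (gauge K x) := by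
      intro x
      rw [ENNReal.ofReal_add zero_le_one (mul_nonneg zero_le_two (gauge_nonneg x)),
        ENNReal.ofReal_mul zero_le_two, ENNReal.ofReal_one, ENNReal.ofReal_ofNat]
    simp_rw [e]
    rw [lintegral_add_left measurable_const, lintegral_const,
      lintegral_const_mul' 2 _ (by norm_num)]
    simp
  have h52 : ENNReal.ofReal (5 / 2) = 1 + 2 * ENNReal.ofReal (3 / 4) := by
    rw [show (2 : ENNReal) = ENNReal.ofReal 2 by simp, ← ENNReal.ofReal_mul zero_le_two,
      ← ENNReal.ofReal_one, ← ENNReal.ofReal_add zero_le_one (by norm_num)]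
    norm_num
  rw [hsplit, h52, add_mul, one_mul, mul_assoc]
  gcongr

/-- Change of variables for a linear equivalence that multiplies volumes by `c`. -/
lemma lintegral_transfer (L : (ℝ × ℝ × ℝ) ≃L[ℝ] V3) {c : ENNReal}
    (hc : ∀ X : Set (ℝ × ℝ × ℝ), volume (L '' X) = c * volume X)
    (A : Set V3) (hA : MeasurableSet A) (g : V3 → ENNReal) (hg : Measurable g) :
    ∫⁻ x in A, g x = c * ∫⁻ z in L ⁻¹' A, g (L z) := by
  have hLm : Measurable L := L.continuous.measurable
  have hmeas : (volume : Measure V3) = c • Measure.map L volume := by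
    ext B hB
    rw [Measure.smul_apply, Measure.map_apply hLm hB, smul_eq_mul, ← hc,
      image_preimage_eq _ L.surjective]
  conv_lhs => rw [hmeas]
  rw [Measure.restrict_smul, lintegral_smul_measure, setLIntegral_map hA hg hLm, smul_eq_mul]

/-- A linear chart of Euclidean 3-space in which the plane coordinates `(a, b)` are the last
two coordinates. -/
lemma exists_model (a b : V3) (hab : OrthoPair a b) :
    ∃ L : (ℝ × ℝ × ℝ) ≃L[ℝ] V3, ∀ z, planeL a b (L z) = z.2 := by
  have hker : LinearMap.ker (planeL a b) ≠ ⊥ :=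
    LinearMap.ker_ne_bot_of_finrank_lt (by simp)
  obtain ⟨u, hu, hu0⟩ := (Submodule.ne_bot_iff _).1 hker
  have hu' : planeL a b u = 0 := hu
  obtain ⟨ha1, hb1, hab0⟩ := hab
  have hba : inner ℝ b a = 0 := by rw [real_inner_comm]; exact hab0
  have ha : planeL a b a = (1, 0) := by
    rw [planeL_apply]
    unfold planeCoords
    rw [real_inner_self_eq_norm_sq, ha1, hab0]
    norm_num
  have hb : planeL a b b = (0, 1) := by
    rw [planeL_apply]
    unfold planeCoords
    rw [real_inner_self_eq_norm_sq, hb1, hba]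
    norm_num
  set Lm : (ℝ × ℝ × ℝ) →ₗ[ℝ] V3 := (LinearMap.fst ℝ ℝ (ℝ × ℝ)).smulRight u
    + ((LinearMap.fst ℝ ℝ ℝ).comp (LinearMap.snd ℝ ℝ (ℝ × ℝ))).smulRight a
    + ((LinearMap.snd ℝ ℝ ℝ).comp (LinearMap.snd ℝ ℝ (ℝ × ℝ))).smulRight b with hLmdef
  have hLm : ∀ z, Lm z = z.1 • u + z.2.1 • a + z.2.2 • b := fun z => by simp [hLmdef]
  have hpl : ∀ z, planeL a b (Lm z) = z.2 := by
    intro z
    rw [hLm, map_add, map_add, map_smul, map_smul, map_smul, hu', ha, hb]
    ext <;> simp
  have hinj : Function.Injective Lm := by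
    rw [← LinearMap.ker_eq_bot, LinearMap.ker_eq_bot']
    intro z hz
    have h2 : z.2 = 0 := by rw [← hpl z, hz, map_zero]
    have h1 : z.1 • u = 0 := by
      have := hLm z
      rw [hz, h2] at this
      simpa using this.symm
    have h1' : z.1 = 0 := (smul_eq_zero.1 h1).resolve_right hu0
    exact Prod.ext h1' h2
  exact ⟨(LinearMap.linearEquivOfInjective Lm hinj (by simp)).toContinuousLinearEquiv, hpl⟩

end Vale.Agent.Lib.P243.H18
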