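import Mathlib
import Vale.Agent.Lib.P243.Defs
import Vale.Agent.Lib.P243.Coord2
import Vale.Agent.Lib.P243.helper18.SymMass

/-!
Centrally symmetric convex bodies of Euclidean 3-space: every finite covering by cylinders has
directionwise relative area at least `5 / 12`.
-/

namespace Vale.Agent.Lib.P243.H18

open MeasureTheory Set
open scoped Pointwise Topology

lemma continuous_planeCoords (a b : V3) : Continuous (planeCoords a b) := by
  unfold planeCoords
  fun_prop

lemma five_twelfths : (5 / 12 : ENNReal) * 6 = ENNReal.ofReal (5 / 2) := by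
  have h1 : (5 / 12 : ENNReal) = ENNReal.ofReal (5 / 12) := by
    rw [ENNReal.ofReal_div_of_pos (by norm_num)]
    simp
  rw [h1, show (6 : ENNReal) = ENNReal.ofReal 6 by simp, ← ENNReal.ofReal_mul (by norm_num)]
  norm_num

/-- Capture bound for one cylinder: the mass of the density `1 + 2 * gauge K` inside the
cylinder over a measurable base `W`. -/
lemma sym_capture (K : Set V3) (hK : IsCompact K) (hconv : Convex ℝ K)
    (hsym : ∀ x ∈ K, -x ∈ K) (h0 : K ∈ 𝓝 0) (a b : V3) (hab : OrthoPair a b)
    (W : Set (ℝ × ℝ)) (hW : MeasurableSet W) :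
    ∫⁻ x in K ∩ planeCoords a b ⁻¹' W, ENNReal.ofReal (1 + 2 * gauge K x)
      ≤ 6 * volume K * (volume W / volume (planeCoords a b '' K)) := by
  have := haar_triple
  obtain ⟨L, hL⟩ := exists_model a b hab
  obtain ⟨κ, -, -, hκ⟩ := exists_scale (volume : Measure (ℝ × ℝ × ℝ)) (volume : Measure V3) L 0
  simp only [zero_add] at hκ
  have hpl : ∀ z, planeCoords a b (L z) = z.2 := fun z => by rw [← planeL_apply, hL]
  set K' := L ⁻¹' K with hK'
  have hK'c : IsCompact K' := L.toHomeomorph.isCompact_preimage.2 hK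
  have hK'conv : Convex ℝ K' := hconv.linear_preimage (L : (ℝ × ℝ × ℝ) →ₗ[ℝ] V3)
  have hK'sym : ∀ z ∈ K', -z ∈ K' := fun z hz => by
    show L (-z) ∈ K
    rw [map_neg]
    exact hsym _ hz
  have hK'0 : K' ∈ 𝓝 0 :=
    L.continuous.continuousAt.preimage_mem_nhds (by rw [map_zero]; exact h0)
  have hcap := model_capture K' hK'c hK'conv hK'sym hK'0 W hW
  have hg : Measurable (gauge K) := (continuous_gauge hconv h0).measurable
  have hf : Measurable fun x : V3 => ENNReal.ofReal (1 + 2 * gauge K x) :=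
    ENNReal.measurable_ofReal.comp (measurable_const.add (measurable_const.mul hg))
  have hAm : MeasurableSet (K ∩ planeCoords a b ⁻¹' W) :=
    hK.measurableSet.inter ((continuous_planeCoords a b).measurable hW)
  have hpre : L ⁻¹' (K ∩ planeCoords a b ⁻¹' W) = K' ∩ Prod.snd ⁻¹' W := by
    ext z
    simp only [mem_preimage, mem_inter_iff, hpl, hK']
  have hgauge : ∀ z, gauge K (L z) = gauge K' z := fun z =>
    (gauge_preimage_linear (L : (ℝ × ℝ × ℝ) →ₗ[ℝ] V3) K z).symm
  have htr := lintegral_transfer L hκ _ hAm _ hf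
  rw [hpre] at htr
  simp only [hgauge] at htr
  have hP : planeCoords a b '' K = Prod.snd '' K' := by
    ext w
    constructor
    · rintro ⟨x, hx, rfl⟩
      refine ⟨L.symm x, ?_, ?_⟩
      · show L (L.symm x) ∈ K
        simpa using hx
      · rw [← hpl]
        simp
    · rintro ⟨z, hz, rfl⟩
      exact ⟨L z, hz, hpl z⟩
  have hV : volume K = κ * volume K' := by
    rw [← hκ, hK', image_preimage_eq _ L.surjective]
  have hP0 : volume (planeCoords a b '' K) ≠ 0 :=
    (Vale.Agent.Lib.P243.volume_planeCoords_pos K ⟨0, mem_interior_iff_mem_nhds.2 h0⟩ a b hab).ne'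
  have hPtop : volume (planeCoords a b '' K) ≠ ⊤ :=
    (hK.image (continuous_planeCoords a b)).measure_lt_top.ne
  rw [← mul_div_assoc, ENNReal.le_div_iff_mul_le (Or.inl hP0) (Or.inl hPtop), htr, hP, hV]
  calc κ * (∫⁻ z in K' ∩ Prod.snd ⁻¹' W, ENNReal.ofReal (1 + 2 * gauge K' z))
        * volume (Prod.snd '' K')
      = κ * ((∫⁻ z in K' ∩ Prod.snd ⁻¹' W, ENNReal.ofReal (1 + 2 * gauge K' z))
        * volume (Prod.snd '' K')) := by ring
    _ ≤ κ * (6 * volume K' * volume W) := by gcongr
    _ = 6 * (κ * volume K') * volume W := by ring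

/-- The theorem for bodies symmetric about the origin. -/
theorem sym_core (K : Set V3) (hK : IsCompact K) (hconv : Convex ℝ K)
    (hsym : ∀ x ∈ K, -x ∈ K) (h0 : K ∈ 𝓝 0) {m : ℕ} (a b : Fin m → V3)
    (hab : ∀ i, OrthoPair (a i) (b i)) (S : Fin m → Set (ℝ × ℝ))
    (hcov : K ⊆ ⋃ i, planeCoords (a i) (b i) ⁻¹' S i) :
    (5 / 12 : ENNReal) ≤ ∑ i, volume (S i) / volume (planeCoords (a i) (b i) '' K) := by
  have hVpos : 0 < volume K := Measure.measure_pos_of_mem_nhds volume h0
  have hVfin : volume K ≠ ⊤ := hK.measure_lt_top.ne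
  have hcap : ∀ i, ∫⁻ x in K ∩ planeCoords (a i) (b i) ⁻¹' toMeasurable volume (S i),
      ENNReal.ofReal (1 + 2 * gauge K x)
      ≤ 6 * volume K * (volume (S i) / volume (planeCoords (a i) (b i) '' K)) := by
    intro i
    have h := sym_capture K hK hconv hsym h0 (a i) (b i) (hab i) (toMeasurable volume (S i))
      (measurableSet_toMeasurable _ _)
    rw [measure_toMeasurable] at h
    exact h
  have hsub : K ⊆ ⋃ i, K ∩ planeCoords (a i) (b i) ⁻¹' toMeasurable volume (S i) := by
    intro x hx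
    obtain ⟨i, hi⟩ := mem_iUnion.1 (hcov hx)
    exact mem_iUnion.2 ⟨i, hx, subset_toMeasurable _ _ hi⟩
  have hmass := gauge_mass K hK hconv h0
  have hsum : ENNReal.ofReal (5 / 2) * volume K
      ≤ ∑ i, 6 * volume K * (volume (S i) / volume (planeCoords (a i) (b i) '' K)) := by
    calc ENNReal.ofReal (5 / 2) * volume K
        ≤ ∫⁻ x in K, ENNReal.ofReal (1 + 2 * gauge K x) := hmass
      _ ≤ ∫⁻ x in ⋃ i, K ∩ planeCoords (a i) (b i) ⁻¹' toMeasurable volume (S i),
            ENNReal.ofReal (1 + 2 * gauge K x) := lintegral_mono_set hsub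
      _ ≤ ∑' i, ∫⁻ x in K ∩ planeCoords (a i) (b i) ⁻¹' toMeasurable volume (S i),
            ENNReal.ofReal (1 + 2 * gauge K x) := lintegral_iUnion_le _ _
      _ = ∑ i, ∫⁻ x in K ∩ planeCoords (a i) (b i) ⁻¹' toMeasurable volume (S i),
            ENNReal.ofReal (1 + 2 * gauge K x) := tsum_fintype _
      _ ≤ _ := Finset.sum_le_sum fun i _ => hcap i
  have h2 : 6 * volume K * (5 / 12 : ENNReal) ≤ 6 * volume K
      * ∑ i, volume (S i) / volume (planeCoords (a i) (b i) '' K) := by
    calc 6 * volume K * (5 / 12 : ENNReal) = ENNReal.ofReal (5 / 2) * volume K := by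
          rw [← five_twelfths]
          ring
      _ ≤ _ := hsum
      _ = _ := (Finset.mul_sum _ _ _).symm
  have h6pos : (6 : ENNReal) * volume K ≠ 0 := mul_ne_zero (by norm_num) hVpos.ne'
  have h6fin : (6 : ENNReal) * volume K ≠ ⊤ := ENNReal.mul_ne_top (by norm_num) hVfin
  exact (ENNReal.mul_le_mul_iff_right h6pos h6fin).1 h2

/-- Every finite covering of a centrally symmetric convex body of Euclidean 3-space by cylinders
has directionwise relative area at least `5 / 12`. -/
theorem sym_bodies (K : Set V3) (hKconv : Convex ℝ K) (hKc : IsCompact K)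
    (hKint : (interior K).Nonempty) (c : V3) (hsym : ∀ x ∈ K, c + c - x ∈ K) {m : ℕ}
    (a b : Fin m → V3) (hab : ∀ i, OrthoPair (a i) (b i)) (S : Fin m → Set (ℝ × ℝ))
    (hcov : K ⊆ ⋃ i, planeCoords (a i) (b i) ⁻¹' S i) :
    (5 / 12 : ENNReal) ≤ ∑ i, volume (S i) / volume (planeCoords (a i) (b i) '' K) := by
  set K₀ : Set V3 := (fun v => c + v) ⁻¹' K with hK₀
  have hK₀c : IsCompact K₀ := (Homeomorph.addLeft c).isCompact_preimage.2 hKc
  have hK₀conv : Convex ℝ K₀ := hKconv.translate_preimage_right c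
  have hK₀sym : ∀ v ∈ K₀, -v ∈ K₀ := by
    intro v hv
    have h : c + c - (c + v) ∈ K := hsym _ hv
    have e : c + -v = c + c - (c + v) := by abel
    show c + -v ∈ K
    rw [e]
    exact h
  have hcint : c ∈ interior K := by
    obtain ⟨x₀, hx₀⟩ := hKint
    have hrc : Continuous fun x : V3 => c + c - x := by fun_prop
    have hU : (fun x : V3 => c + c - x) ⁻¹' interior K ⊆ interior K := by
      refine interior_maximal ?_ (isOpen_interior.preimage hrc)
      intro x hx
      have h : c + c - (c + c - x) ∈ K := hsym _ (interior_subset hx)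
      have e : x = c + c - (c + c - x) := by abel
      rw [e]
      exact h
    have hx₁ : c + c - x₀ ∈ interior K := by
      apply hU
      show c + c - (c + c - x₀) ∈ interior K
      have e : c + c - (c + c - x₀) = x₀ := by abel
      rw [e]
      exact hx₀
    have hmid := hKconv.interior hx₀ hx₁ (by norm_num : (0 : ℝ) ≤ 1 / 2)
      (by norm_num : (0 : ℝ) ≤ 1 / 2) (by norm_num)
    convert hmid using 1
    rw [smul_sub, smul_add, ← add_smul]
    module
  have hK₀0 : K₀ ∈ 𝓝 0 := by
    have hcont : Continuous fun v : V3 => c + v := by fun_prop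
    refine hcont.continuousAt.preimage_mem_nhds ?_
    rw [add_zero]
    exact mem_interior_iff_mem_nhds.1 hcint
  have hadd : ∀ (i : Fin m) (v : V3), planeCoords (a i) (b i) (c + v)
      = planeCoords (a i) (b i) c + planeCoords (a i) (b i) v := by
    intro i v
    rw [← planeL_apply, ← planeL_apply, ← planeL_apply, map_add]
  set S' : Fin m → Set (ℝ × ℝ) := fun i => (fun w => planeCoords (a i) (b i) c + w) ⁻¹' S i
    with hS'
  have hcov' : K₀ ⊆ ⋃ i, planeCoords (a i) (b i) ⁻¹' S' i := by
    intro v hv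
    obtain ⟨i, hi⟩ := mem_iUnion.1 (hcov hv)
    refine mem_iUnion.2 ⟨i, ?_⟩
    show planeCoords (a i) (b i) c + planeCoords (a i) (b i) v ∈ S i
    rw [← hadd]
    exact hi
  have hvolS : ∀ i, volume (S' i) = volume (S i) := fun i => measure_preimage_add _ _ _
  have hvolP : ∀ i, volume (planeCoords (a i) (b i) '' K₀)
      = volume (planeCoords (a i) (b i) '' K) := by
    intro i
    have e : planeCoords (a i) (b i) '' K₀
        = (fun w => planeCoords (a i) (b i) c + w) ⁻¹' (planeCoords (a i) (b i) '' K) := by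
      ext w
      constructor
      · rintro ⟨v, hv, rfl⟩
        exact ⟨c + v, hv, hadd i v⟩
      · rintro ⟨x, hx, hxw⟩
        refine ⟨x - c, ?_, ?_⟩
        · show c + (x - c) ∈ K
          rw [add_sub_cancel]
          exact hx
        · have h1 := hadd i (x - c)
          rw [add_sub_cancel, hxw] at h1
          exact (add_left_cancel h1).symm
    rw [e, measure_preimage_add]
  have h := sym_core K₀ hK₀c hK₀conv hK₀sym hK₀0 a b hab S' hcov'
  simp only [hvolS, hvolP] at h
  exact h

/-- The same covering satisfies the inequality with the minimal projection area. -/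
theorem sym_bodies_amin (K : Set V3) (hKconv : Convex ℝ K) (hKc : IsCompact K)
    (hKint : (interior K).Nonempty) (c : V3) (hsym : ∀ x ∈ K, c + c - x ∈ K) {m : ℕ}
    (a b : Fin m → V3) (hab : ∀ i, OrthoPair (a i) (b i)) (S : Fin m → Set (ℝ × ℝ))
    (hcov : K ⊆ ⋃ i, planeCoords (a i) (b i) ⁻¹' S i) :
    (5 / 12 : ENNReal) * (⨅ (a' : V3) (b' : V3) (_ : OrthoPair a' b'),
        volume (planeCoords a' b' '' K)) ≤ ∑ i, volume (S i) := by
  set A : ENNReal := ⨅ (a' : V3) (b' : V3) (_ : OrthoPair a' b'),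
    volume (planeCoords a' b' '' K) with hA
  have h := sym_bodies K hKconv hKc hKint c hsym a b hab S hcov
  have hle : ∀ i, A ≤ volume (planeCoords (a i) (b i) '' K) := fun i =>
    iInf_le_of_le (a i) (iInf_le_of_le (b i) (iInf_le_of_le (hab i) le_rfl))
  have h2 : (5 / 12 : ENNReal) ≤ (∑ i, volume (S i)) / A := by
    refine h.trans ?_
    rw [ENNReal.div_eq_inv_mul, Finset.mul_sum]
    refine Finset.sum_le_sum fun i _ => ?_
    rw [← ENNReal.div_eq_inv_mul]
    exact ENNReal.div_le_div_left (hle i) _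
  rcases eq_or_ne A 0 with h0 | h0
  · rw [h0, mul_zero]
    exact zero_le
  rcases eq_or_ne A ⊤ with ht | ht
  · rw [ht, ENNReal.div_top] at h2
    exact absurd h2 (by simp)
  exact (ENNReal.le_div_iff_mul_le (Or.inl h0) (Or.inl ht)).1 h2

end Vale.Agent.Lib.P243.H18
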