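import Mathlib
import Vale.Agent.Lib.P243.Defs
import Vale.Agent.Lib.P243.helper18.TetraCyl

/-!
Bang's half-area inequality (directionwise form) for coverings of a tetrahedron by cylinders
whose axes are parallel to edges of the tetrahedron.
-/

namespace Vale.Agent.Lib.P243.H18

open MeasureTheory Set

lemma exists_perm (j k : Fin 4) (h : j ≠ k) :
    ∃ σ : Equiv.Perm (Fin 4), σ 0 = j ∧ σ 1 = k := by
  revert j k
  decide

lemma Simp_pos : 0 < volume Simp :=
  lt_of_lt_of_le (ENNReal.mul_pos (by simp) Tri_pos.ne') Simp_ge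

lemma mass_pos (u : Fin 4 → V3) (hu : AffineIndependent ℝ u) :
    0 < volume (tetra u) + volume (tcore u) := by
  have := haar_triple
  obtain ⟨c, hc0, -, hc⟩ := exists_scale (volume : Measure (ℝ × ℝ × ℝ))
    (volume : Measure V3) (parE u hu) (u 0)
  have hT : tetra u = (fun z => u 0 + parE u hu z) '' Simp := (par_image_Simp u).symm
  refine lt_of_lt_of_le ?_ le_self_add
  rw [hT, hc]
  exact ENNReal.mul_pos hc0 Simp_pos.ne'

lemma mass_lt_top (u : Fin 4 → V3) (hu : AffineIndependent ℝ u) :
    volume (tetra u) + volume (tcore u) < ⊤ := by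
  have := haar_triple
  obtain ⟨c, -, hctop, hc⟩ := exists_scale (volume : Measure (ℝ × ℝ × ℝ))
    (volume : Measure V3) (parE u hu) (u 0)
  have hT : tetra u = (fun z => u 0 + parE u hu z) '' Simp := (par_image_Simp u).symm
  have h1 : volume (tetra u) < ⊤ := by
    rw [hT, hc]
    exact ENNReal.mul_lt_top (lt_top_iff_ne_top.2 hctop) Simp_lt_top
  exact ENNReal.add_lt_top.2 ⟨h1, (measure_mono (tcore_subset_tetra u)).trans_lt h1⟩

/-- Directionwise half-area inequality for a tetrahedron covered by cylinders with axes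
parallel to its edges. -/
theorem tetra_edges (v : Fin 4 → V3) (hv : AffineIndependent ℝ v) {m : ℕ} (a b : Fin m → V3)
    (hab : ∀ i, OrthoPair (a i) (b i))
    (hedge : ∀ i, ∃ j k : Fin 4, j ≠ k ∧
      planeCoords (a i) (b i) (v j) = planeCoords (a i) (b i) (v k))
    (S : Fin m → Set (ℝ × ℝ))
    (hcov : convexHull ℝ (range v) ⊆ ⋃ i, planeCoords (a i) (b i) ⁻¹' S i) :
    (1 / 2 : ENNReal) ≤ ∑ i, volume (S i)
      / volume (planeCoords (a i) (b i) '' convexHull ℝ (range v)) := by
  rw [convexHull_range_eq_tetra] at hcov ⊢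
  set V₀ := volume (tetra v) + volume (tcore v) with hV₀
  have hpos : 0 < V₀ := mass_pos v hv
  have hfin : V₀ < ⊤ := mass_lt_top v hv
  have hcyl : ∀ i, volume (tetra v ∩ planeCoords (a i) (b i) ⁻¹' toMeasurable volume (S i))
      + volume (tcore v ∩ planeCoords (a i) (b i) ⁻¹' toMeasurable volume (S i))
      ≤ 2 * V₀ * (volume (S i) / volume (planeCoords (a i) (b i) '' tetra v)) := by
    intro i
    obtain ⟨j, k, hjk, he⟩ := hedge i
    obtain ⟨σ, h0, h1⟩ := exists_perm j k hjk
    have hu : AffineIndependent ℝ (v ∘ σ) := hv.comp_embedding σ.toEmbedding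
    have hT : tetra (v ∘ σ) = tetra v := by
      rw [← convexHull_range_eq_tetra, ← convexHull_range_eq_tetra, EquivLike.range_comp]
    have hO : tcore (v ∘ σ) = tcore v := tcore_comp v σ
    have hb := cyl_bound (v ∘ σ) hu (a i) (b i) (hab i)
      (by simp only [Function.comp_apply, h0, h1]; exact he)
      (toMeasurable volume (S i)) (measurableSet_toMeasurable _ _)
    rw [hT, hO, measure_toMeasurable] at hb
    exact hb
  have hcovT : volume (tetra v)
      ≤ ∑ i, volume (tetra v ∩ planeCoords (a i) (b i) ⁻¹' toMeasurable volume (S i)) := by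
    refine (measure_mono ?_).trans (measure_iUnion_fintype_le _ _)
    intro x hx
    obtain ⟨i, hi⟩ := mem_iUnion.1 (hcov hx)
    exact mem_iUnion.2 ⟨i, hx, subset_toMeasurable _ _ hi⟩
  have hcovO : volume (tcore v)
      ≤ ∑ i, volume (tcore v ∩ planeCoords (a i) (b i) ⁻¹' toMeasurable volume (S i)) := by
    refine (measure_mono ?_).trans (measure_iUnion_fintype_le _ _)
    intro x hx
    obtain ⟨i, hi⟩ := mem_iUnion.1 (hcov (tcore_subset_tetra v hx))
    exact mem_iUnion.2 ⟨i, hx, subset_toMeasurable _ _ hi⟩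
  have hsum : V₀ ≤ 2 * V₀
      * ∑ i, volume (S i) / volume (planeCoords (a i) (b i) '' tetra v) := by
    calc V₀ ≤ ∑ i, (volume (tetra v ∩ planeCoords (a i) (b i) ⁻¹' toMeasurable volume (S i))
          + volume (tcore v ∩ planeCoords (a i) (b i) ⁻¹' toMeasurable volume (S i))) := by
          rw [Finset.sum_add_distrib]
          exact add_le_add hcovT hcovO
      _ ≤ ∑ i, 2 * V₀ * (volume (S i) / volume (planeCoords (a i) (b i) '' tetra v)) :=
          Finset.sum_le_sum fun i _ => hcyl i
      _ = _ := (Finset.mul_sum _ _ _).symm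
  have h2 : V₀ * 1 ≤ V₀
      * (2 * ∑ i, volume (S i) / volume (planeCoords (a i) (b i) '' tetra v)) := by
    rw [mul_one]
    calc V₀ ≤ _ := hsum
      _ = _ := by ring
  have h3 := (ENNReal.mul_le_mul_iff_right hpos.ne' hfin.ne).1 h2
  exact ENNReal.div_le_of_le_mul' h3

/-- The same covering satisfies Bang's half-area inequality with the minimal projection area. -/
theorem tetra_edges_amin (v : Fin 4 → V3) (hv : AffineIndependent ℝ v) {m : ℕ}
    (a b : Fin m → V3) (hab : ∀ i, OrthoPair (a i) (b i))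
    (hedge : ∀ i, ∃ j k : Fin 4, j ≠ k ∧
      planeCoords (a i) (b i) (v j) = planeCoords (a i) (b i) (v k))
    (S : Fin m → Set (ℝ × ℝ))
    (hcov : convexHull ℝ (range v) ⊆ ⋃ i, planeCoords (a i) (b i) ⁻¹' S i) :
    (1 / 2 : ENNReal) * (⨅ (a' : V3) (b' : V3) (_ : OrthoPair a' b'),
        volume (planeCoords a' b' '' convexHull ℝ (range v))) ≤ ∑ i, volume (S i) := by
  set A : ENNReal := ⨅ (a' : V3) (b' : V3) (_ : OrthoPair a' b'),
    volume (planeCoords a' b' '' convexHull ℝ (range v)) with hA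
  have h := tetra_edges v hv a b hab hedge S hcov
  have hle : ∀ i, A ≤ volume (planeCoords (a i) (b i) '' convexHull ℝ (range v)) := fun i =>
    iInf_le_of_le (a i) (iInf_le_of_le (b i) (iInf_le_of_le (hab i) le_rfl))
  have h2 : (1 / 2 : ENNReal) ≤ (∑ i, volume (S i)) / A := by
    refine h.trans ?_
    rw [ENNReal.div_eq_inv_mul, Finset.mul_sum]
    refine Finset.sum_le_sum fun i _ => ?_
    rw [← ENNReal.div_eq_inv_mul]
    exact ENNReal.div_le_div_left (hle i) _
  rcases eq_or_ne A 0 with h0 | h0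
  · rw [h0, mul_zero]
    exact zero_le
  rcases eq_or_ne A ⊤ with ht | ht
  · rw [ht, ENNReal.div_top] at h2
    exact absurd h2 (by simp)
  exact (ENNReal.le_div_iff_mul_le (Or.inl h0) (Or.inl ht)).1 h2

end Vale.Agent.Lib.P243.H18
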