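import Vale.Agent.Lib.P243.helper18.Signs

open scoped RealInnerProductSpace Pointwise

namespace Vale.Agent.Lib.P243

variable {V : Type*} [NormedAddCommGroup V] [InnerProductSpace ℝ V]

/-- `WidthGE K W`: in every direction `θ` the set `K` has width at least `W`. -/
def WidthGE (K : Set V) (W : ℝ) : Prop :=
  ∀ θ : V, ‖θ‖ = 1 → ∃ x ∈ K, ∃ y ∈ K, W ≤ ⟪x - y, θ⟫

/-- A compact convex set all of whose widths are at least `W ≥ 0` has a chord of length `W` in
every direction. -/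
theorem exists_chord (K : Set V) (hK : IsCompact K) (hconv : Convex ℝ K) (hne : K.Nonempty)
    (W : ℝ) (hW0 : 0 ≤ W) (hW : WidthGE K W) (e : V) (he : ‖e‖ = 1) :
    ∃ p ∈ K, p + W • e ∈ K := by
  by_contra hno
  have hDc : IsCompact (K - K) := by
    have hcont : Continuous (fun p : V × V => p.1 - p.2) := continuous_fst.sub continuous_snd
    have h := (hK.prod hK).image hcont
    have e : (fun p : V × V => p.1 - p.2) '' (K ×ˢ K) = K - K := by
      ext z
      constructor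
      · rintro ⟨⟨x, y⟩, ⟨hx, hy⟩, rfl⟩
        exact Set.sub_mem_sub hx hy
      · intro hz
        obtain ⟨x, hx, y, hy, hxy⟩ := Set.mem_sub.mp hz
        exact ⟨(x, y), ⟨hx, hy⟩, hxy⟩
    rw [e] at h
    exact h
  have hDconv : Convex ℝ (K - K) := hconv.sub hconv
  have hDne : (K - K).Nonempty := hne.sub hne
  have hu : W • e ∉ K - K := by
    intro h
    obtain ⟨x, hx, y, hy, hxy⟩ := Set.mem_sub.mp h
    apply hno
    refine ⟨y, hy, ?_⟩
    rw [← hxy]
    simpa using hx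
  obtain ⟨d, hdD, hmin⟩ :=
    exists_norm_eq_iInf_of_complete_convex hDne hDc.isComplete hDconv (W • e)
  have hle := (norm_eq_iInf_iff_real_inner_le_zero hDconv hdD).mp hmin
  set θ₀ : V := W • e - d with hθ₀
  have hθ₀ne : θ₀ ≠ 0 := by
    intro h
    apply hu
    have : W • e = d := sub_eq_zero.mp h
    rw [this]
    exact hdD
  have hpos : 0 < ‖θ₀‖ := norm_pos_iff.mpr hθ₀ne
  have hθ : ‖(‖θ₀‖⁻¹) • θ₀‖ = 1 := by
    rw [norm_smul, norm_inv, norm_norm, inv_mul_cancel₀ hpos.ne']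
  obtain ⟨x, hx, y, hy, hxy⟩ := hW _ hθ
  have hmem : x - y ∈ K - K := Set.sub_mem_sub hx hy
  have h1 := hle (x - y) hmem
  rw [inner_smul_right] at hxy
  have h2 : W * ‖θ₀‖ ≤ ⟪x - y, θ₀⟫ := by
    have := mul_le_mul_of_nonneg_right hxy hpos.le
    calc W * ‖θ₀‖ ≤ ‖θ₀‖⁻¹ * ⟪x - y, θ₀⟫ * ‖θ₀‖ := this
      _ = ⟪x - y, θ₀⟫ := by field_simp
  have h3 : ⟪x - y, θ₀⟫ ≤ ⟪d, θ₀⟫ := by
    have e1 : ⟪θ₀, x - y - d⟫ = ⟪x - y, θ₀⟫ - ⟪d, θ₀⟫ := by
      rw [real_inner_comm, inner_sub_left]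
    linarith
  have h4 : ⟪d, θ₀⟫ = ⟪W • e, θ₀⟫ - ‖θ₀‖ ^ 2 := by
    rw [← real_inner_self_eq_norm_sq, ← inner_sub_left]
    congr 1
    rw [hθ₀]
    abel
  have h5 : ⟪W • e, θ₀⟫ ≤ W * ‖θ₀‖ := by
    rw [inner_smul_left]
    have := real_inner_le_norm e θ₀
    rw [he, one_mul] at this
    simpa using mul_le_mul_of_nonneg_left this hW0
  nlinarith [sq_pos_of_pos hpos]

/-- The step of Bang's construction: the set of points `y` with `y, y + b ∈ K`. -/
theorem step (K : Set V) (hK : IsCompact K) (hconv : Convex ℝ K) (hne : K.Nonempty)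
    (W : ℝ) (hW : WidthGE K W) (b : V) (hb : ‖b‖ < W) :
    IsCompact {y | y ∈ K ∧ y + b ∈ K} ∧ Convex ℝ {y | y ∈ K ∧ y + b ∈ K} ∧
      ({y | y ∈ K ∧ y + b ∈ K}).Nonempty ∧ WidthGE {y | y ∈ K ∧ y + b ∈ K} (W - ‖b‖) := by
  have hcompact : IsCompact {y | y ∈ K ∧ y + b ∈ K} := by
    have : {y | y ∈ K ∧ y + b ∈ K} = K ∩ (fun y => y + b) ⁻¹' K := rfl
    rw [this]
    exact hK.inter_right (hK.isClosed.preimage (continuous_add_const b))
  have hconvex : Convex ℝ {y | y ∈ K ∧ y + b ∈ K} := by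
    intro x hx y hy a c ha hc hac
    refine ⟨hconv hx.1 hy.1 ha hc hac, ?_⟩
    have h := hconv hx.2 hy.2 ha hc hac
    have e1 : a • x + c • y + b = a • (x + b) + c • (y + b) := by
      rw [smul_add, smul_add]
      have : b = a • b + c • b := by rw [← add_smul, hac, one_smul]
      nth_rewrite 1 [this]
      abel
    rw [e1]
    exact h
  by_cases hb0 : b = 0
  · subst hb0
    have hset : {y | y ∈ K ∧ y + (0 : V) ∈ K} = K := by
      ext y
      simp
    rw [hset] at hcompact hconvex ⊢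
    refine ⟨hcompact, hconvex, hne, ?_⟩
    simpa using hW
  · have hbpos : 0 < ‖b‖ := norm_pos_iff.mpr hb0
    have hWpos : 0 < W := hbpos.trans hb
    have he : ‖(‖b‖⁻¹) • b‖ = 1 := by
      rw [norm_smul, norm_inv, norm_norm, inv_mul_cancel₀ hbpos.ne']
    obtain ⟨p, hp, hq⟩ := exists_chord K hK hconv hne W hWpos.le hW _ he
    set lam : ℝ := ‖b‖ / W with hlam
    have hlam0 : 0 ≤ lam := div_nonneg hbpos.le hWpos.le
    have hlam1 : lam ≤ 1 := (div_le_one hWpos).mpr hb.le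
    have hφ : ∀ k ∈ K, (1 - lam) • k + lam • p ∈ {y | y ∈ K ∧ y + b ∈ K} := by
      intro k hk
      refine ⟨hconv hk hp (by linarith) hlam0 (by ring), ?_⟩
      have h := hconv hk hq (by linarith : (0 : ℝ) ≤ 1 - lam) hlam0 (by ring)
      have e1 : (1 - lam) • k + lam • p + b
          = (1 - lam) • k + lam • (p + W • ‖b‖⁻¹ • b) := by
        rw [smul_add, smul_smul, smul_smul]
        have : lam * W * ‖b‖⁻¹ = 1 := by
          rw [hlam]
          field_simp
        rw [this, one_smul]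
        abel
      rw [e1]
      exact h
    obtain ⟨k₀, hk₀⟩ := hne
    refine ⟨hcompact, hconvex, ⟨_, hφ k₀ hk₀⟩, ?_⟩
    intro θ hθ
    obtain ⟨x, hx, y, hy, hxy⟩ := hW θ hθ
    refine ⟨_, hφ x hx, _, hφ y hy, ?_⟩
    have e1 : (1 - lam) • x + lam • p - ((1 - lam) • y + lam • p) = (1 - lam) • (x - y) := by
      rw [smul_sub]
      abel
    rw [e1, inner_smul_left]
    have e2 : W - ‖b‖ = (1 - lam) * W := by
      rw [hlam]
      field_simp
    rw [e2]
    simpa using mul_le_mul_of_nonneg_left hxy (by linarith : (0 : ℝ) ≤ 1 - lam)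

/-- Bang's second lemma: a compact convex set of minimal width `> ∑ ‖b i‖` contains a translate
of all the sub-sums of the vectors `b i`. -/
theorem exists_translate {ι : Type*} [DecidableEq ι] (s : Finset ι) (b : ι → V) :
    ∀ (K : Set V) (W : ℝ), IsCompact K → Convex ℝ K → K.Nonempty → WidthGE K W →
      ∑ i ∈ s, ‖b i‖ < W → ∃ c, ∀ J ⊆ s, c + ∑ j ∈ J, b j ∈ K := by
  induction s using Finset.induction_on with
  | empty =>
    intro K W _ _ hne _ _
    obtain ⟨c, hc⟩ := hne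
    refine ⟨c, fun J hJ => ?_⟩
    rw [Finset.subset_empty.mp hJ]
    simpa using hc
  | insert a s ha ih =>
    intro K W hK hconv hne hW hsum
    rw [Finset.sum_insert ha] at hsum
    have hs0 : 0 ≤ ∑ i ∈ s, ‖b i‖ := Finset.sum_nonneg (fun i _ => norm_nonneg _)
    have hba : ‖b a‖ < W := by linarith
    obtain ⟨hK', hconv', hne', hW'⟩ := step K hK hconv hne W hW (b a) hba
    obtain ⟨c, hc⟩ := ih _ (W - ‖b a‖) hK' hconv' hne' hW' (by linarith)
    refine ⟨c, fun J hJ => ?_⟩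
    by_cases haJ : a ∈ J
    · have hsub : J.erase a ⊆ s := by
        intro j hj
        have hj' := Finset.mem_erase.mp hj
        rcases Finset.mem_insert.mp (hJ hj'.2) with h | h
        · exact absurd h hj'.1
        · exact h
      have h := (hc (J.erase a) hsub).2
      rw [← Finset.sum_erase_add J b haJ, ← add_assoc]
      exact h
    · have hsub : J ⊆ s := (Finset.subset_insert_iff_of_notMem haJ).mp hJ
      exact (hc J hsub).1

end Vale.Agent.Lib.P243
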